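import Vale.Agent.P134R.Energy

/-!
# P134: the transversal gradient vanishes under homogeneous energy growth
-/

namespace Vale.Agent.P134R

open MeasureTheory Filter Topology Finset Vale.Agent.P134

variable {k m : ℕ}

/-- The transversal index set. -/
def cs (k m : ℕ) : Finset (Fin (k + m)) := Finset.univ.map (Fin.castAddEmb m)

theorem gsq_cs (u : Sp (k + m) → ℝ) (x : Sp (k + m)) : gsq (cs k m) u x = g2 u x := by
  simp [gsq, cs, g2, Finset.sum_map]

theorem sym_gain {u : Sp (k + m) → ℝ} (hu : IsSol ac u)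
    (hS : ∀ x (i j : Fin k), x (Fin.castAdd m i) * pd (Fin.castAdd m j) u x
      = x (Fin.castAdd m j) * pd (Fin.castAdd m i) u x)
    {δ : ℝ} (hδ : 0 < δ) (x : Sp (k + m)) :
    ((k : ℝ) - 1) * g2 u x / (1 + rsq x)
      ≤ (∑ i ∈ cs k m, ∑ q, pd q (pd i u) x ^ 2)
        - (∑ q, sv (cs k m) u q x ^ 2) / (gsq (cs k m) u x + δ) := by
  have hW : ∀ i : Fin k, ContDiff ℝ 1 (pd (Fin.castAdd m i) u) := fun i => pd_contDiff hu.reg _
  have hcd : ∀ i : Fin k, Differentiable ℝ fun y : Sp (k + m) => y (Fin.castAdd m i) := fun i =>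
    (coord_contDiff (N := 1) _).differentiable (by norm_num)
  have hp : 0 < gsq (cs k m) u x + δ := by linarith [gsq_nonneg (cs k m) u x]
  set G := gsq (cs k m) u x with hG
  set S := fun q => sv (cs k m) u q x with hSdef
  set a : Fin (k + m) → ℝ := fun q => S q / (G + δ) with ha
  set d : Fin k → Fin (k + m) → ℝ := fun i q =>
    pd q (pd (Fin.castAdd m i) u) x - pd (Fin.castAdd m i) u x * a q with hd
  have hid : ∀ i j q, (if j = q then (1 : ℝ) else 0) * pd (Fin.castAdd m i) u x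
      - (if i = q then (1 : ℝ) else 0) * pd (Fin.castAdd m j) u x
      = x (Fin.castAdd m i) * d j (Fin.castAdd m q)
        - x (Fin.castAdd m j) * d i (Fin.castAdd m q) := by
    intro i j q
    have hfun : (fun y : Sp (k + m) => y (Fin.castAdd m j) * pd (Fin.castAdd m i) u y)
        = fun y => y (Fin.castAdd m i) * pd (Fin.castAdd m j) u y :=
      funext fun y => (hS y i j).symm
    have h0 := congrFun hfun x
    have h1 := congrArg (fun g => pd (Fin.castAdd m q) g x) hfun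
    simp only [pd_mul (hcd _) ((hW _).differentiable one_ne_zero), pd_coord,
      (Fin.castAdd_injective k m).eq_iff, eq_comm (a := q)] at h1
    simp only [hd]
    linear_combination h1 - a (Fin.castAdd m q) * h0
  have key := symm_algebra (fun i : Fin k => x (Fin.castAdd m i))
    (fun i => pd (Fin.castAdd m i) u x) (fun i q => d i (Fin.castAdd m q)) hid
  have hr : ∑ i : Fin k, x (Fin.castAdd m i) ^ 2 = rsq x := rfl
  rw [hr] at key
  have h1 : ∑ i, ∑ q : Fin k, d i (Fin.castAdd m q) ^ 2 ≤ ∑ i, ∑ q, d i q ^ 2 :=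
    Finset.sum_le_sum fun i _ => by
      rw [Fin.sum_univ_add (fun q => d i q ^ 2)]
      exact le_add_of_nonneg_right (Finset.sum_nonneg fun _ _ => sq_nonneg _)
  have h2 : ∑ i, ∑ q, d i q ^ 2
      ≤ (∑ i ∈ cs k m, ∑ q, pd q (pd i u) x ^ 2) - (∑ q, S q ^ 2) / (G + δ) := by
    have e1 : ∑ i ∈ cs k m, ∑ q, pd q (pd i u) x ^ 2
        = ∑ q, ∑ i : Fin k, pd q (pd (Fin.castAdd m i) u) x ^ 2 := by
      rw [cs, Finset.sum_map, Finset.sum_comm]
      rfl
    rw [Finset.sum_comm, e1, Finset.sum_div, ← Finset.sum_sub_distrib]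
    refine Finset.sum_le_sum fun q _ => ?_
    have e2 : ∑ i : Fin k, d i q ^ 2 = (∑ i : Fin k, pd q (pd (Fin.castAdd m i) u) x ^ 2)
        - 2 * a q * S q + a q ^ 2 * G := by
      simp only [hd, hSdef, hG, sv, gsq, cs, Finset.sum_map, Fin.castAddEmb_apply,
        Finset.mul_sum, ← Finset.sum_sub_distrib, ← Finset.sum_add_distrib]
      exact Finset.sum_congr rfl fun i _ => by ring
    have e3 : a q * S q = S q ^ 2 / (G + δ) := by
      rw [ha, pow_two]
      ring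
    have e4 : a q ^ 2 * (G + δ) = S q ^ 2 / (G + δ) := by
      rw [ha]
      field_simp
    rw [e2]
    nlinarith [mul_nonneg hδ.le (sq_nonneg (a q))]
  refine le_trans ?_ h2
  rw [div_le_iff₀ (by linarith [rsq_nonneg x])]
  rw [show g2 u x = ∑ i : Fin k, pd (Fin.castAdd m i) u x ^ 2 from rfl]
  have hn : 0 ≤ ∑ i, ∑ q, d i q ^ 2 :=
    Finset.sum_nonneg fun _ _ => Finset.sum_nonneg fun _ _ => sq_nonneg _
  nlinarith [rsq_nonneg x]

theorem weight_bound {d : ℕ} {S ρ : ℝ} (hS : 0 < S) (h : S ^ 2 ≤ ρ) :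
    W ((d : ℝ) / 2) ρ ^ 2 ≤ (S ^ d)⁻¹ := by
  rw [W_sq d ((sq_nonneg S).trans h)]
  exact inv_anti₀ (by positivity) (pow_le_pow_left₀ hS.le (Real.le_sqrt_of_sq_le (by linarith)) d)

theorem box_monotone {R₁ R₂ : ℝ} {x : Sp (k + m)} (h1 : rsq x ≤ R₁ ^ 2) (h2 : ssq x ≤ R₂ ^ 2) :
    x ∈ box R₁ R₂ := ⟨h1, h2⟩

/-- The scalar gain of the weight `(1 + |x|²)^(-d/4)`. -/
theorem weight_gain {a K r s : ℝ} (hK : 1 ≤ K) (ha : a ^ 2 ≤ K) (hr : 0 ≤ r) (hs : 0 ≤ s) :
    (1 + s) / (1 + (r + s)) ^ 2 ≤ K / (1 + r) - 4 * (r + s) * (a / 2 / (1 + (r + s))) ^ 2 := by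
  have h1 : 4 * (r + s) * (a / 2 / (1 + (r + s))) ^ 2 ≤ K * ((r + s) / (1 + (r + s)) ^ 2) := by
    calc 4 * (r + s) * (a / 2 / (1 + (r + s))) ^ 2 = a ^ 2 * ((r + s) / (1 + (r + s)) ^ 2) := by
          field_simp; ring
      _ ≤ _ := mul_le_mul_of_nonneg_right ha (by positivity)
  have hX : (1 + s) * (1 + r) ≤ (1 + (r + s)) ^ 2 - (r + s) * (1 + r) := by nlinarith
  have hX0 : 0 ≤ (1 + s) * (1 + r) := by positivity
  have h2 : (1 + s) / (1 + (r + s)) ^ 2 ≤ K / (1 + r) - K * ((r + s) / (1 + (r + s)) ^ 2) := by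
    rw [show K / (1 + r) - K * ((r + s) / (1 + (r + s)) ^ 2)
      = K * ((1 + (r + s)) ^ 2 - (r + s) * (1 + r)) / ((1 + r) * (1 + (r + s)) ^ 2) by field_simp,
      show (1 + s) / (1 + (r + s)) ^ 2 = (1 + s) * (1 + r) / ((1 + r) * (1 + (r + s)) ^ 2) by
        field_simp]
    exact div_le_div_of_nonneg_right (hX.trans (le_mul_of_one_le_left (hX0.trans hX) hK))
      (by positivity)
  linarith

/-- The error of a cut-off at scale `S`. -/
theorem cut_bound {a B S r e H H' G : ℝ} (hS : 0 < S) (hB : 0 ≤ B) (ha : 0 ≤ a) (hr : 0 ≤ r)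
    (hr4 : r ≤ 4 * S ^ 2) (hH0 : 0 ≤ H) (hH1 : H ≤ 1) (hH' : |H'| ≤ B / S ^ 2) (he0 : 0 ≤ e)
    (he : e ≤ a / 2 / S ^ 2) (hG0 : 0 ≤ G) (hG1 : G ≤ 1) :
    4 * r * H' * (H' - 2 * e * H) * G ^ 2 ≤ (16 * a * B + 16 * B ^ 2) / S ^ 2 := by
  have e3 : |H' - 2 * e * H| ≤ (B + a) / S ^ 2 := by
    have : 2 * e * H ≤ a / S ^ 2 := by
      calc 2 * e * H ≤ 2 * (a / 2 / S ^ 2) * 1 :=
            mul_le_mul (by linarith) hH1 hH0 (by positivity)
        _ = _ := by ring
    rw [add_div]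
    refine (abs_sub _ _).trans (add_le_add hH' ?_)
    rwa [abs_of_nonneg (mul_nonneg (by positivity) hH0)]
  refine (le_abs_self _).trans ?_
  rw [abs_mul, abs_mul, abs_mul, abs_of_nonneg (show 0 ≤ G ^ 2 from sq_nonneg G),
    abs_of_nonneg (show 0 ≤ 4 * r by positivity)]
  calc 4 * r * |H'| * |H' - 2 * e * H| * G ^ 2
      ≤ 4 * (4 * S ^ 2) * (B / S ^ 2) * ((B + a) / S ^ 2) * 1 :=
        mul_le_mul (mul_le_mul (mul_le_mul (by linarith) hH' (abs_nonneg _) (by positivity))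
          e3 (abs_nonneg _) (by positivity)) (pow_le_one₀ hG0 hG1) (sq_nonneg _) (by positivity)
    _ = _ := by field_simp; ring

theorem pd_weight (a : ℝ) (y : Sp (k + m)) (q : Fin (k + m)) :
    pd q (fun z => W a (nsq z)) y = -(a / 2 / (1 + nsq y)) * W a (nsq y) * (2 * y q) := by
  rw [pd_comp (W_hasDerivAt a (nsq_nonneg y)) (nsq_contDiff.differentiable one_ne_zero y), pd_nsq]
  ring

theorem grad_test (a S T : ℝ) (y : Sp (k + m)) :
    ∑ q, pd q (fun z => W a (nsq z) * tst (sc S) (sc T) z) y ^ 2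
      = W a (nsq y) ^ 2 *
        (4 * rsq y * (-(a / 2 / (1 + nsq y) * sc S (rsq y) * sc T (ssq y))
            + sc' S (rsq y) * sc T (ssq y)) ^ 2
          + 4 * ssq y * (-(a / 2 / (1 + nsq y) * sc S (rsq y) * sc T (ssq y))
            + sc S (rsq y) * sc' T (ssq y)) ^ 2) := by
  obtain ⟨tc, tn⟩ := pd_tst (k := k) (m := m) (sc_hasDerivAt S (rsq y)) (sc_hasDerivAt T (ssq y))
  have hw : Differentiable ℝ fun z : Sp (k + m) => W a (nsq z) := fun z =>
    ((W_contDiffAt a (nsq_nonneg z)).differentiableAt one_ne_zero).comp z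
      (nsq_contDiff.differentiable one_ne_zero z)
  have ht : Differentiable ℝ (tst (k := k) (m := m) (sc S) (sc T)) :=
    (tst_contDiff (fun r _ => (sc_contDiff S).contDiffAt)
      fun r _ => (sc_contDiff T).contDiffAt).differentiable one_ne_zero
  have hq : ∀ q, pd q (fun z => W a (nsq z) * tst (sc S) (sc T) z) y
      = -(a / 2 / (1 + nsq y)) * W a (nsq y) * (2 * y q) * (sc S (rsq y) * sc T (ssq y))
        + W a (nsq y) * pd q (tst (sc S) (sc T)) y := fun q => by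
    rw [pd_mul hw ht, pd_weight]
    rfl
  rw [Fin.sum_univ_add]
  simp only [hq, tc, tn]
  have er : rsq y = ∑ i, y (Fin.castAdd m i) ^ 2 := rfl
  have es : ssq y = ∑ j, y (Fin.natAdd k j) ^ 2 := rfl
  generalize sc S (rsq y) = H, sc' S (rsq y) = H', sc T (ssq y) = G, sc' T (ssq y) = G'
  rw [er, es]
  simp only [Finset.mul_sum, Finset.sum_mul, mul_add]
  congr 1 <;> exact Finset.sum_congr rfl fun q _ => by ring

/-- The pointwise inequality. -/
theorem key_pt {u : Sp (k + m) → ℝ} {d : ℕ} (hk1 : (1 : ℝ) ≤ (k : ℝ) - 1)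
    (hd : ((d : ℝ) / 2) ^ 2 ≤ (k : ℝ) - 1) {B : ℝ} (hB0 : 0 ≤ B)
    (hB : ∀ t, |deriv th t| ≤ B ∧ (deriv th t ≠ 0 → 1 ≤ |t| ∧ |t| ≤ 4))
    {S T : ℝ} (hS0 : 0 < S) (hT0 : 0 < T) (y : Sp (k + m)) :
    tst (sc S) (sc T) y ^ 2
        * (g2 u y * W ((d : ℝ) / 2) (nsq y) ^ 2 * (1 + ssq y) / (1 + nsq y) ^ 2)
      ≤ ((W ((d : ℝ) / 2) (nsq y) * tst (sc S) (sc T) y) ^ 2
            * (((k : ℝ) - 1) * g2 u y / (1 + rsq y))
          - gsq (cs k m) u y *
            ∑ q, pd q (fun z => W ((d : ℝ) / 2) (nsq z) * tst (sc S) (sc T) z) y ^ 2)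
        + ((16 * ((d : ℝ) / 2) * B + 16 * B ^ 2) * (S ^ (d + 2))⁻¹
              * (box (2 * S) (2 * T)).indicator (g2 u) y
          + (16 * ((d : ℝ) / 2) * B + 16 * B ^ 2)
              * (box (2 * S) (2 * T) ∩ {z | T ^ 2 ≤ ssq z}).indicator
                (fun z => g2 u z * W ((d : ℝ) / 2) (nsq z) ^ 2 / T ^ 2) y) := by
  rw [gsq_cs, grad_test]
  have hρe : nsq y = rsq y + ssq y := by rw [nsq_eq, norm_sq_eq]
  have hr0 : 0 ≤ rsq y := rsq_nonneg y
  have hs0 : 0 ≤ ssq y := ssq_nonneg y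
  have ha0 : (0 : ℝ) ≤ (d : ℝ) / 2 := by positivity
  obtain ⟨H0, H1, -, H3⟩ := sc_facts hS0 hr0
  obtain ⟨G0, G1, -, G3⟩ := sc_facts hT0 hs0
  obtain ⟨c1, c2⟩ := sc'_bound hS0 hr0 hB
  obtain ⟨d1, d2⟩ := sc'_bound hT0 hs0 hB
  have hg := g2_nonneg (u := u) y
  have hgain := weight_gain hk1 hd hr0 hs0
  have hI1 : 0 ≤ (box (2 * S) (2 * T)).indicator (g2 u) y :=
    Set.indicator_nonneg (fun z _ => g2_nonneg z) y
  have hI2 : 0 ≤ (box (2 * S) (2 * T) ∩ {z | T ^ 2 ≤ ssq z}).indicator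
      (fun z => g2 u z * W ((d : ℝ) / 2) (nsq z) ^ 2 / T ^ 2) y :=
    Set.indicator_nonneg (fun z _ => by have := g2_nonneg (u := u) z; positivity) y
  set C : ℝ := 16 * ((d : ℝ) / 2) * B + 16 * B ^ 2 with hC
  have hC0 : 0 ≤ C := by positivity
  set V := g2 u y * W ((d : ℝ) / 2) (nsq y) ^ 2 with hV
  have hV0 : 0 ≤ V := mul_nonneg hg (sq_nonneg _)
  have hA : sc' S (rsq y) = 0 ∨ sc T (ssq y) = 0 ∨
      (y ∈ box (2 * S) (2 * T) ∧ S ^ 2 ≤ rsq y ∧ rsq y ≤ 4 * S ^ 2) := by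
    by_cases h1 : sc' S (rsq y) = 0
    · exact Or.inl h1
    by_cases h2 : sc T (ssq y) = 0
    · exact Or.inr (Or.inl h2)
    refine Or.inr (Or.inr ⟨box_monotone (by linarith [(c2 h1).2]) ?_, c2 h1⟩)
    by_contra hc
    exact h2 (G3 (by linarith [not_le.1 hc]))
  have hBt : sc' T (ssq y) = 0 ∨ sc S (rsq y) = 0 ∨
      (y ∈ box (2 * S) (2 * T) ∩ {z | T ^ 2 ≤ ssq z} ∧ T ^ 2 ≤ ssq y ∧ ssq y ≤ 4 * T ^ 2) := by
    by_cases h1 : sc' T (ssq y) = 0
    · exact Or.inl h1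
    by_cases h2 : sc S (rsq y) = 0
    · exact Or.inr (Or.inl h2)
    refine Or.inr (Or.inr ⟨⟨box_monotone ?_ (by linarith [(d2 h1).2]), (d2 h1).1⟩, d2 h1⟩)
    by_contra hc
    exact h2 (H3 (by linarith [not_le.1 hc]))
  have tA : V * (4 * rsq y * sc' S (rsq y) * (sc' S (rsq y)
      - 2 * ((d : ℝ) / 2 / 2 / (1 + nsq y)) * sc S (rsq y)) * sc T (ssq y) ^ 2)
      ≤ C * (S ^ (d + 2))⁻¹ * (box (2 * S) (2 * T)).indicator (g2 u) y := by
    rcases hA with h | h | ⟨hm, q1, q2⟩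
    · rw [h]; simp only [zero_mul, mul_zero]; exact mul_nonneg (by positivity) hI1
    · rw [h]; simp only [ne_eq, OfNat.ofNat_ne_zero, not_false_eq_true, zero_pow, mul_zero]
      exact mul_nonneg (by positivity) hI1
    rw [Set.indicator_of_mem hm]
    have hS2ρ : S ^ 2 ≤ nsq y := by linarith
    calc _ ≤ V * (C / S ^ 2) := mul_le_mul_of_nonneg_left (cut_bound hS0 hB0 ha0 hr0 q2 H0 H1 c1
          (by have := nsq_nonneg y; positivity)
          (div_le_div_of_nonneg_left (by positivity) (by positivity) (by linarith)) G0 G1) hV0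
      _ ≤ g2 u y * (S ^ d)⁻¹ * (C / S ^ 2) :=
          mul_le_mul_of_nonneg_right (mul_le_mul_of_nonneg_left (weight_bound hS0 hS2ρ) hg)
            (by positivity)
      _ = _ := by rw [pow_add, mul_inv]; ring
  have tB : V * (4 * ssq y * sc' T (ssq y) * (sc' T (ssq y)
      - 2 * ((d : ℝ) / 2 / 2 / (1 + nsq y)) * sc T (ssq y)) * sc S (rsq y) ^ 2)
      ≤ C * (box (2 * S) (2 * T) ∩ {z | T ^ 2 ≤ ssq z}).indicator
          (fun z => g2 u z * W ((d : ℝ) / 2) (nsq z) ^ 2 / T ^ 2) y := by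
    rcases hBt with h | h | ⟨hm, q1, q2⟩
    · rw [h]; simp only [zero_mul, mul_zero]; exact mul_nonneg hC0 hI2
    · rw [h]; simp only [ne_eq, OfNat.ofNat_ne_zero, not_false_eq_true, zero_pow, mul_zero]
      exact mul_nonneg hC0 hI2
    rw [Set.indicator_of_mem hm]
    calc _ ≤ V * (C / T ^ 2) := mul_le_mul_of_nonneg_left (cut_bound hT0 hB0 ha0 hs0 q2 G0 G1 d1
          (by have := nsq_nonneg y; positivity)
          (div_le_div_of_nonneg_left (by positivity) (by positivity) (by linarith)) H0 H1) hV0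
      _ = _ := by rw [hV]; ring
  have hmain := mul_le_mul_of_nonneg_left hgain
    (show 0 ≤ V * (sc S (rsq y) * sc T (ssq y)) ^ 2 from mul_nonneg hV0 (sq_nonneg _))
  rw [← hρe] at hmain
  have elhs : tst (sc S) (sc T) y ^ 2 * (V * (1 + ssq y) / (1 + nsq y) ^ 2)
      = V * (sc S (rsq y) * sc T (ssq y)) ^ 2 * ((1 + ssq y) / (1 + nsq y) ^ 2) := by
    simp only [tst]; ring
  rw [elhs]
  have eid : (W ((d : ℝ) / 2) (nsq y) * tst (sc S) (sc T) y) ^ 2
        * (((k : ℝ) - 1) * g2 u y / (1 + rsq y))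
      - g2 u y * (W ((d : ℝ) / 2) (nsq y) ^ 2 *
        (4 * rsq y * (-((d : ℝ) / 2 / 2 / (1 + nsq y) * sc S (rsq y) * sc T (ssq y))
            + sc' S (rsq y) * sc T (ssq y)) ^ 2
          + 4 * ssq y * (-((d : ℝ) / 2 / 2 / (1 + nsq y) * sc S (rsq y) * sc T (ssq y))
            + sc S (rsq y) * sc' T (ssq y)) ^ 2))
      = V * (sc S (rsq y) * sc T (ssq y)) ^ 2
          * (((k : ℝ) - 1) / (1 + rsq y) - 4 * nsq y * ((d : ℝ) / 2 / 2 / (1 + nsq y)) ^ 2)
        - (V * (4 * rsq y * sc' S (rsq y) * (sc' S (rsq y)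
              - 2 * ((d : ℝ) / 2 / 2 / (1 + nsq y)) * sc S (rsq y)) * sc T (ssq y) ^ 2)
          + V * (4 * ssq y * sc' T (ssq y) * (sc' T (ssq y)
              - 2 * ((d : ℝ) / 2 / 2 / (1 + nsq y)) * sc T (ssq y)) * sc S (rsq y) ^ 2)) := by
    simp only [tst, hV]
    generalize hw' : W ((d : ℝ) / 2) (nsq y) = w
    generalize he' : (d : ℝ) / 2 / 2 / (1 + nsq y) = e
    rw [hρe]
    ring
  rw [eid]
  linarith

/-- The tail of the cut-off is controlled by the density between two balls. -/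
theorem tail_pt {u : Sp (k + m) → ℝ} {a : ℝ} (p : ℕ) {T : ℝ} (hT : 1 ≤ T) (y : Sp (k + m)) :
    (box (2 * (2 ^ p * T)) (2 * T) ∩ {z | T ^ 2 ≤ ssq z}).indicator
        (fun z => g2 u z * W a (nsq z) ^ 2 / T ^ 2) y
      ≤ (5 + 4 * 4 ^ p) ^ 2 *
        ((Metric.closedBall (0 : Sp (k + m)) (4 * 2 ^ p * T)).indicator
            (fun z => g2 u z * W a (nsq z) ^ 2 * (1 + ssq z) / (1 + nsq z) ^ 2) y
          - (Metric.closedBall (0 : Sp (k + m)) (T / 2)).indicator
            (fun z => g2 u z * W a (nsq z) ^ 2 * (1 + ssq z) / (1 + nsq z) ^ 2) y) := by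
  have hT0 : 0 < T := by linarith
  have hρe : nsq y = rsq y + ssq y := by rw [nsq_eq, norm_sq_eq]
  have h2p : (1 : ℝ) ≤ 2 ^ p := one_le_pow₀ one_le_two
  have h4p : ((2 : ℝ) ^ p) ^ 2 = 4 ^ p := by rw [← pow_mul, mul_comm p 2, pow_mul]; norm_num
  set q : Sp (k + m) → ℝ :=
    fun z => g2 u z * W a (nsq z) ^ 2 * (1 + ssq z) / (1 + nsq z) ^ 2 with hq
  have hq0 : ∀ z, 0 ≤ q z := fun z => div_nonneg (mul_nonneg (mul_nonneg (g2_nonneg z)
    (sq_nonneg _)) (by linarith [ssq_nonneg z])) (sq_nonneg _)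
  have hsub : Metric.closedBall (0 : Sp (k + m)) (T / 2) ⊆
      Metric.closedBall 0 (4 * 2 ^ p * T) := Metric.closedBall_subset_closedBall (by nlinarith)
  by_cases hy : y ∈ box (2 * (2 ^ p * T)) (2 * T) ∩ {z | T ^ 2 ≤ ssq z}
  · obtain ⟨⟨h1, h2⟩, h3⟩ := hy
    have h3' : T ^ 2 ≤ ssq y := h3
    rw [Set.indicator_of_mem (show y ∈ box (2 * (2 ^ p * T)) (2 * T) ∩ {z | T ^ 2 ≤ ssq z} from
      ⟨⟨h1, h2⟩, h3⟩)]
    rw [mul_pow, mul_pow, h4p] at h1
    have hR : y ∈ Metric.closedBall (0 : Sp (k + m)) (4 * 2 ^ p * T) := by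
      rw [mem_closedBall_zero_iff]
      refine (sq_le_sq₀ (norm_nonneg _) (by positivity)).1 ?_
      rw [norm_sq_eq, mul_pow, mul_pow, h4p]
      nlinarith [one_le_pow₀ (show (1 : ℝ) ≤ 4 by norm_num) (n := p), sq_nonneg T]
    have hR' : y ∉ Metric.closedBall (0 : Sp (k + m)) (T / 2) := by
      rw [mem_closedBall_zero_iff]
      intro hc
      have := pow_le_pow_left₀ (norm_nonneg _) hc 2
      rw [norm_sq_eq] at this
      nlinarith [rsq_nonneg y]
    rw [Set.indicator_of_mem hR, Set.indicator_of_notMem hR', sub_zero]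
    have hρ : 1 + nsq y ≤ (5 + 4 * 4 ^ p) * T ^ 2 := by
      have : (1 : ℝ) ≤ T ^ 2 := one_le_pow₀ hT
      nlinarith
    have hn : 0 < 1 + nsq y := by linarith [nsq_nonneg y]
    have hsq : (1 + nsq y) ^ 2 ≤ (5 + 4 * 4 ^ p) ^ 2 * (T ^ 2 * T ^ 2) := by
      calc (1 + nsq y) ^ 2 ≤ ((5 + 4 * 4 ^ p) * T ^ 2) ^ 2 := pow_le_pow_left₀ hn.le hρ 2
        _ = _ := by ring
    simp only [hq]
    have hv : 0 ≤ g2 u y * W a (nsq y) ^ 2 := mul_nonneg (g2_nonneg y) (sq_nonneg _)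
    generalize g2 u y * W a (nsq y) ^ 2 = v at hv ⊢
    rw [mul_div_assoc', div_le_div_iff₀ (by positivity) (pow_pos hn 2)]
    calc v * (1 + nsq y) ^ 2 ≤ v * ((5 + 4 * 4 ^ p) ^ 2 * (T ^ 2 * T ^ 2)) :=
          mul_le_mul_of_nonneg_left hsq hv
      _ = (5 + 4 * 4 ^ p) ^ 2 * (v * T ^ 2) * T ^ 2 := by ring
      _ ≤ (5 + 4 * 4 ^ p) ^ 2 * (v * (1 + ssq y)) * T ^ 2 :=
          mul_le_mul_of_nonneg_right (mul_le_mul_of_nonneg_left
            (mul_le_mul_of_nonneg_left (by linarith) hv) (sq_nonneg _)) (sq_nonneg _)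
  · rw [Set.indicator_of_notMem hy]
    refine mul_nonneg (sq_nonneg _) ?_
    by_cases hy2 : y ∈ Metric.closedBall (0 : Sp (k + m)) (T / 2)
    · rw [Set.indicator_of_mem hy2, Set.indicator_of_mem (hsub hy2), sub_self]
    · rw [Set.indicator_of_notMem hy2, sub_zero]
      exact Set.indicator_nonneg (fun z _ => hq0 z) y

/-- The transversal gradient of a rotationally symmetric stable solution vanishes. -/
theorem trans_zero {u : Sp (k + m) → ℝ} {d : ℕ} (hk : 2 ≤ k)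
    (hd : ((d : ℝ) / 2) ^ 2 ≤ (k : ℝ) - 1)
    (hu : IsSol ac u) (hb : ∀ x, |u x| ≤ 1) (hs : Stable u)
    (hS : ∀ x (i j : Fin k), x (Fin.castAdd m i) * pd (Fin.castAdd m j) u x
      = x (Fin.castAdd m j) * pd (Fin.castAdd m i) u x)
    (Cp : ℕ → ℝ) (hCp : Tendsto (fun p : ℕ => Cp p / ((2 : ℝ) ^ p) ^ (d + 2)) atTop (𝓝 0))
    (hE : ∀ (p : ℕ) (T : ℝ), 1 ≤ T →
      ∫ x, (box (k := k) (m := m) (2 * (2 ^ p * T)) (2 * T)).indicator (g2 u) x
        ≤ Cp p * T ^ (d + 2))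
    (x : Sp (k + m)) (i : Fin k) : pd (Fin.castAdd m i) u x = 0 := by
  obtain ⟨B, hB0, hB⟩ := exists_th_bound
  have hk1 : (1 : ℝ) ≤ (k : ℝ) - 1 := by
    have : (2 : ℝ) ≤ k := by exact_mod_cast hk
    linarith
  set a : ℝ := (d : ℝ) / 2 with ha
  have ha0 : 0 ≤ a := by positivity
  set w : Sp (k + m) → ℝ := fun y => W a (nsq y) with hwdef
  have hw : ContDiff ℝ 1 w := contDiff_iff_contDiffAt.2 fun y =>
    (W_contDiffAt a (nsq_nonneg y)).comp y nsq_contDiff.contDiffAt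
  set Q : Sp (k + m) → ℝ := fun y => g2 u y * w y ^ 2 * (1 + ssq y) / (1 + nsq y) ^ 2 with hQdef
  have hn1 : ∀ y : Sp (k + m), 0 < 1 + nsq y := fun y => by linarith [nsq_nonneg y]
  have hQc : Continuous Q := (((g2_continuous hu.reg).mul (hw.continuous.pow 2)).mul
    (continuous_const.add (ssq_contDiff (N := 1)).continuous)).div
      ((continuous_const.add nsq_contDiff.continuous).pow 2) fun y => (pow_pos (hn1 y) 2).ne'
  have hQ0 : ∀ y, 0 ≤ Q y := fun y => div_nonneg (mul_nonneg (mul_nonneg (g2_nonneg y)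
    (sq_nonneg _)) (by linarith [ssq_nonneg y])) (sq_nonneg _)
  have hrs : ∀ y : Sp (k + m), nsq y = rsq y + ssq y := fun y => by rw [nsq_eq, norm_sq_eq]
  set C1 : ℝ := 16 * a * B + 16 * B ^ 2 with hC1
  have hC10 : 0 ≤ C1 := by positivity
  set J := fun R : ℝ => ∫ y, (Metric.closedBall 0 R).indicator Q y with hJ
  have iJ : ∀ R, Integrable ((Metric.closedBall (0 : Sp (k + m)) R).indicator Q) := fun R =>
    (hQc.continuousOn.integrableOn_compact (isCompact_closedBall _ _)).integrable_indicator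
      measurableSet_closedBall
  have hmono : Monotone J := fun a b hab => integral_mono (iJ a) (iJ b) fun y =>
    Set.indicator_le_indicator_of_subset (Metric.closedBall_subset_closedBall hab) hQ0 y
  have main : ∀ (p : ℕ) (T : ℝ), 1 ≤ T →
      J T ≤ C1 * (Cp p / ((2 : ℝ) ^ p) ^ (d + 2)) + C1 * Cp p ∧
      J T ≤ C1 * (Cp p / ((2 : ℝ) ^ p) ^ (d + 2))
        + C1 * (5 + 4 * 4 ^ p) ^ 2 * (J (4 * 2 ^ p * T) - J (T / 2)) := by
    intro p T hT
    have hT0 : 0 < T := by linarith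
    set S : ℝ := 2 ^ p * T with hSdef
    have h2p : (1 : ℝ) ≤ 2 ^ p := one_le_pow₀ one_le_two
    have hST : T ≤ S := le_mul_of_one_le_left hT0.le h2p
    have hS0 : 0 < S := by linarith
    have hS2 : S ^ 2 = 4 ^ p * T ^ 2 := by
      rw [hSdef, mul_pow, ← pow_mul, mul_comm p 2, pow_mul]; norm_num
    set η : Sp (k + m) → ℝ := fun y => w y * tst (sc S) (sc T) y with hηdef
    have htd : ContDiff ℝ 1 (tst (k := k) (m := m) (sc S) (sc T)) :=
      tst_contDiff (fun r _ => (sc_contDiff S).contDiffAt) fun r _ => (sc_contDiff T).contDiffAt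
    have htc : HasCompactSupport (tst (k := k) (m := m) (sc S) (sc T)) :=
      tst_compact (R := 4 * S ^ 2 + 4 * T ^ 2)
        (fun r hr => (sc_facts hS0 (by nlinarith)).2.2.2 (by nlinarith))
        (fun r hr => (sc_facts hT0 (by nlinarith)).2.2.2 (by nlinarith))
    have hηd : ContDiff ℝ 1 η := hw.mul htd
    have hηc : HasCompactSupport η := htc.mul_left
    set Z : Sp (k + m) → ℝ := fun y => ((k : ℝ) - 1) * g2 u y / (1 + rsq y) with hZdef
    have hr1 : ∀ y : Sp (k + m), 0 < 1 + rsq y := fun y => by linarith [rsq_nonneg y]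
    have hZc : Continuous Z := (continuous_const.mul (g2_continuous hu.reg)).div
      (continuous_const.add (rsq_contDiff (N := 1)).continuous) fun y => (hr1 y).ne'
    have hSZ := stab_SZ hu hb hs (cs k m) hηd hηc hZc
      (fun δ h0 _ y => sym_gain hu hS h0 y)
    set b2 : Set (Sp (k + m)) := box (2 * S) (2 * T) with hb2
    set tl : Set (Sp (k + m)) := b2 ∩ {y | T ^ 2 ≤ ssq y} with htl
    have hb2m : MeasurableSet b2 := (box_isClosed _ _).measurableSet
    have htlm : MeasurableSet tl :=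
      hb2m.inter (isClosed_le continuous_const (ssq_contDiff (N := 1)).continuous).measurableSet
    set P : Sp (k + m) → ℝ := fun y => g2 u y * w y ^ 2 / T ^ 2 with hPdef
    have hP0 : ∀ y, 0 ≤ P y := fun y =>
      div_nonneg (mul_nonneg (g2_nonneg y) (sq_nonneg _)) (sq_nonneg _)
    have hpt : ∀ y, tst (sc S) (sc T) y ^ 2 * Q y ≤
        (η y ^ 2 * Z y - gsq (cs k m) u y * ∑ q, pd q η y ^ 2)
        + (C1 * (S ^ (d + 2))⁻¹ * b2.indicator (g2 u) y + C1 * tl.indicator P y) :=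
      key_pt (u := u) hk1 hd hB0 hB hS0 hT0
    have hcη : ∀ z, z ∉ tsupport η → η z = 0 ∧ ∀ q, pd q η z = 0 := fun z hz => hcs_zero hz
    have i1 : Integrable fun y => η y ^ 2 * Z y :=
      ((hηd.continuous.pow 2).mul hZc).integrable_of_hasCompactSupport
        (HasCompactSupport.intro hηc fun z hz => by simp [(hcη z hz).1])
    have i2 : Integrable fun y => gsq (cs k m) u y * ∑ q, pd q η y ^ 2 :=
      ((gsq_contDiff hu.reg _).continuous.mul (continuous_finsetSum _ fun q _ =>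
        (pd_cont hηd q).pow 2)).integrable_of_hasCompactSupport
        (HasCompactSupport.intro hηc fun z hz => by simp [(hcη z hz).2])
    have hPc : Continuous P := ((g2_continuous hu.reg).mul (hw.continuous.pow 2)).div_const _
    have i3 : Integrable (b2.indicator (g2 u)) :=
      ((g2_continuous hu.reg).continuousOn.integrableOn_compact (box_isCompact _ _)).integrable_indicator
        hb2m
    have i4 : Integrable (tl.indicator P) :=
      ((hPc.continuousOn.integrableOn_compact (box_isCompact _ _)).mono_set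
        Set.inter_subset_left).integrable_indicator htlm
    have iQ : Integrable fun y => tst (sc S) (sc T) y ^ 2 * Q y :=
      ((htd.continuous.pow 2).mul hQc).integrable_of_hasCompactSupport
        (HasCompactSupport.intro htc fun z hz => by simp [image_eq_zero_of_notMem_tsupport hz])
    have hlow : J T ≤ ∫ y, tst (sc S) (sc T) y ^ 2 * Q y := by
      refine integral_mono (iJ T) iQ fun y => ?_
      by_cases hy : y ∈ Metric.closedBall (0 : Sp (k + m)) T
      · rw [mem_closedBall_zero_iff] at hy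
        have h2 : nsq y ≤ T ^ 2 := by rw [nsq_eq]; exact pow_le_pow_left₀ (norm_nonneg _) hy 2
        rw [hrs] at h2
        rw [Set.indicator_of_mem (mem_closedBall_zero_iff.2 hy), tst,
          (sc_facts hS0 (rsq_nonneg y)).2.2.1 (by nlinarith [ssq_nonneg y]),
          (sc_facts hT0 (ssq_nonneg y)).2.2.1 (by linarith [rsq_nonneg y])]
        simp
      · rw [Set.indicator_of_notMem hy]
        exact mul_nonneg (sq_nonneg _) (hQ0 y)
    have i12 : Integrable fun y => η y ^ 2 * Z y - gsq (cs k m) u y * ∑ q, pd q η y ^ 2 := i1.sub i2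
    have i34 : Integrable fun y => C1 * (S ^ (d + 2))⁻¹ * b2.indicator (g2 u) y
        + C1 * tl.indicator P y := (i3.const_mul _).add (i4.const_mul _)
    have hh := integral_mono iQ (i12.add i34) hpt
    simp only [Pi.add_apply] at hh
    rw [integral_add i12 i34, integral_sub i1 i2, integral_add (i3.const_mul _) (i4.const_mul _),
      integral_const_mul, integral_const_mul] at hh
    have hE1 := hE p T hT
    rw [← hSdef, ← hb2] at hE1
    have hfirst : C1 * (S ^ (d + 2))⁻¹ * ∫ y, b2.indicator (g2 u) y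
        ≤ C1 * (Cp p / ((2 : ℝ) ^ p) ^ (d + 2)) := by
      calc _ ≤ C1 * (S ^ (d + 2))⁻¹ * (Cp p * T ^ (d + 2)) :=
            mul_le_mul_of_nonneg_left hE1 (by positivity)
        _ = _ := by rw [hSdef, mul_pow]; field_simp
    refine ⟨?_, ?_⟩
    · have : ∫ y, tl.indicator P y ≤ Cp p := by
        have h1 : ∫ y, tl.indicator P y ≤ ∫ y, (T ^ (d + 2))⁻¹ * b2.indicator (g2 u) y := by
          refine integral_mono i4 (i3.const_mul _) fun y => ?_
          by_cases hy : y ∈ tl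
          · rw [Set.indicator_of_mem hy, Set.indicator_of_mem hy.1]
            have hwb : w y ^ 2 ≤ (T ^ d)⁻¹ :=
              weight_bound hT0 (by rw [hrs]; linarith [rsq_nonneg y, show T ^ 2 ≤ ssq y from hy.2])
            calc g2 u y * w y ^ 2 / T ^ 2 ≤ g2 u y * (T ^ d)⁻¹ / T ^ 2 :=
                  div_le_div_of_nonneg_right (mul_le_mul_of_nonneg_left hwb (g2_nonneg y))
                    (sq_nonneg _)
              _ = _ := by rw [pow_add, mul_inv]; ring
          · rw [Set.indicator_of_notMem hy]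
            exact mul_nonneg (by positivity) (Set.indicator_nonneg (fun z _ => g2_nonneg z) y)
        rw [integral_const_mul] at h1
        refine h1.trans ((mul_le_mul_of_nonneg_left hE1 (by positivity)).trans (le_of_eq ?_))
        field_simp
      nlinarith [mul_le_mul_of_nonneg_left this hC10]
    · set K : ℝ := (5 + 4 * 4 ^ p) ^ 2 with hK
      have : ∫ y, tl.indicator P y ≤ K * (J (4 * 2 ^ p * T) - J (T / 2)) := by
        rw [hJ, ← integral_sub (iJ _) (iJ _), ← integral_const_mul]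
        exact integral_mono i4 (((iJ _).sub (iJ _)).const_mul K) fun y =>
          tail_pt (u := u) p hT y
      have := mul_le_mul_of_nonneg_left this hC10
      nlinarith
  have hbdd : BddAbove (Set.range J) := by
    refine ⟨C1 * (Cp 0 / ((2 : ℝ) ^ 0) ^ (d + 2)) + C1 * Cp 0, ?_⟩
    rintro _ ⟨R, rfl⟩
    exact (hmono (le_max_left R 1)).trans (main 0 _ (le_max_right R 1)).1
  set L := ⨆ R, J R with hL
  have hlim : Tendsto J atTop (𝓝 L) := tendsto_atTop_ciSup hmono hbdd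
  have hup : ∀ p : ℕ, L ≤ C1 * (Cp p / ((2 : ℝ) ^ p) ^ (d + 2)) := by
    intro p
    have t : Tendsto (fun T : ℝ => C1 * (Cp p / ((2 : ℝ) ^ p) ^ (d + 2))
        + C1 * (5 + 4 * 4 ^ p) ^ 2 * (J (4 * 2 ^ p * T) - J (T / 2))) atTop
        (𝓝 (C1 * (Cp p / ((2 : ℝ) ^ p) ^ (d + 2)))) := by
      have := (((hlim.comp (tendsto_id.const_mul_atTop (by positivity : (0 : ℝ) < 4 * 2 ^ p))).sub
        (hlim.comp (tendsto_id.atTop_div_const two_pos))).const_mul
          (C1 * (5 + 4 * 4 ^ p) ^ 2)).const_add (C1 * (Cp p / ((2 : ℝ) ^ p) ^ (d + 2)))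
      simpa using this
    exact le_of_tendsto_of_tendsto hlim t
      ((eventually_ge_atTop 1).mono fun T hT => (main p T hT).2)
  have hL0 : L ≤ 0 := by
    have t : Tendsto (fun p : ℕ => C1 * (Cp p / ((2 : ℝ) ^ p) ^ (d + 2))) atTop (𝓝 0) := by
      simpa using hCp.const_mul C1
    exact ge_of_tendsto' t hup
  have hz := eq_zero_of_small hQc hQ0 (fun R => (le_ciSup hbdd R).trans hL0) x
  simp only [hQdef, div_eq_zero_iff, mul_eq_zero, pow_eq_zero_iff two_ne_zero, (hn1 x).ne',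
    or_false] at hz
  rcases hz with (hz | hz) | hz
  · exact (pow_eq_zero_iff two_ne_zero).1 ((Finset.sum_eq_zero_iff_of_nonneg
      fun i _ => sq_nonneg _).1 hz i (Finset.mem_univ i))
  · exact absurd hz (Real.rpow_pos_of_pos (hn1 x) _).ne'
  · exact absurd hz (ne_of_gt (by linarith [ssq_nonneg x]))

end Vale.Agent.P134R
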