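import Vale.Agent.P134R.Parallel

/-!
# P134: removing a coordinate on which a solution does not depend
-/

namespace Vale.Agent.P134R

open MeasureTheory Filter Topology Finset Vale.Agent.P134

variable {n : ℕ}

/-- Insertion of the coordinate `l` with value zero. -/
noncomputable def embL (l : Fin (n + 1)) : Sp n →L[ℝ] Sp (n + 1) :=
  ∑ i, (EuclideanSpace.proj i : Sp n →L[ℝ] ℝ).smulRight (ev (l.succAbove i))

/-- Deletion of the coordinate `l`. -/
noncomputable def tlL (l : Fin (n + 1)) : Sp (n + 1) →L[ℝ] Sp n :=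
  ∑ i, (EuclideanSpace.proj (l.succAbove i) : Sp (n + 1) →L[ℝ] ℝ).smulRight (ev i)

theorem embL_apply (l : Fin (n + 1)) (y : Sp n) :
    embL l y = ∑ i, y i • ev (l.succAbove i) := by
  simp [embL]

theorem tlL_coord (l : Fin (n + 1)) (x : Sp (n + 1)) (i : Fin n) :
    tlL l x i = x (l.succAbove i) := by
  simp [tlL, ev_apply]

theorem embL_ev (l : Fin (n + 1)) (i : Fin n) : embL l (ev i) = ev (l.succAbove i) := by
  simp [embL_apply, ev_apply]

theorem tlL_ev (l : Fin (n + 1)) (i : Fin n) : tlL l (ev (l.succAbove i)) = ev i := by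
  ext q
  rw [tlL_coord, ev_apply, ev_apply]
  simp

theorem tlL_ev_self (l : Fin (n + 1)) : tlL l (ev l) = 0 := by
  ext q
  rw [tlL_coord, ev_apply]
  simp [Fin.succAbove_ne]

theorem decomp (l : Fin (n + 1)) (x : Sp (n + 1)) : x = embL l (tlL l x) + x l • ev l := by
  conv_lhs => rw [← sum_ev x, Fin.sum_univ_succAbove _ l]
  rw [add_comm (x l • ev l), embL_apply]
  simp [tlL_coord]

theorem pd_comp_emb (l : Fin (n + 1)) {g : Sp (n + 1) → ℝ} (hg : Differentiable ℝ g) (i : Fin n) :
    pd i (fun y => g (embL l y)) = fun y => pd (l.succAbove i) g (embL l y) := by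
  funext y
  show fderiv ℝ (g ∘ embL l) y (ev i) = _
  rw [fderiv_comp y (hg _) (embL l).differentiableAt, (embL l).fderiv]
  simp [pd, embL_ev]

theorem pd_comp_tl (l : Fin (n + 1)) {g : Sp n → ℝ} (hg : Differentiable ℝ g) :
    (∀ i, pd (l.succAbove i) (fun x => g (tlL l x)) = fun x => pd i g (tlL l x)) ∧
      pd l (fun x => g (tlL l x)) = fun _ => 0 := by
  have h : ∀ (x : Sp (n + 1)) q, pd q (fun x => g (tlL l x)) x = fderiv ℝ g (tlL l x) (tlL l (ev q)) := by
    intro x q
    show fderiv ℝ (g ∘ tlL l) x (ev q) = _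
    rw [fderiv_comp x (hg _) (tlL l).differentiableAt, (tlL l).fderiv]
    rfl
  refine ⟨fun i => funext fun x => ?_, funext fun x => ?_⟩
  · rw [h, tlL_ev]; rfl
  · rw [h, tlL_ev_self, map_zero]

theorem indep (l : Fin (n + 1)) {g : Sp (n + 1) → ℝ} (hg : Differentiable ℝ g)
    (h0 : ∀ x, pd l g x = 0) (x : Sp (n + 1)) : g x = g (embL l (tlL l x)) := by
  have hd : ∀ t : ℝ, HasDerivAt (fun t : ℝ => g (embL l (tlL l x) + t • ev l)) 0 t := fun t => by
    simpa [h0] using line_deriv hg (embL l (tlL l x)) l 1 t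
  have := is_const_of_deriv_eq_zero (fun t => (hd t).differentiableAt) (fun t => (hd t).deriv)
    (x l) 0
  simpa [← decomp l x] using this

theorem split_integral (l : Fin (n + 1)) (g : Sp n → ℝ) (h : ℝ → ℝ) :
    ∫ x, g (tlL l x) * h (x l) = (∫ y, g y) * ∫ t, h t := by
  have e1 : ∫ x : Sp (n + 1), g (tlL l x) * h (x l)
      = ∫ z : Fin (n + 1) → ℝ, g (WithLp.toLp 2 fun i => z (l.succAbove i)) * h (z l) := by
    rw [← (PiLp.volume_preserving_ofLp (Fin (n + 1))).integral_comp
      (MeasurableEquiv.toLp 2 (Fin (n + 1) → ℝ)).symm.measurableEmbedding]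
    refine integral_congr_ae (Eventually.of_forall fun x => ?_)
    show g (tlL l x) * _ = _
    congr 2
    ext i
    simp [tlL_coord]
  have e2 : ∫ z : Fin (n + 1) → ℝ, g (WithLp.toLp 2 fun i => z (l.succAbove i)) * h (z l)
      = ∫ p : ℝ × (Fin n → ℝ), g (WithLp.toLp 2 p.2) * h p.1 := by
    rw [← (volume_preserving_piFinSuccAbove (fun _ : Fin (n + 1) => ℝ) l).integral_comp
      (MeasurableEquiv.piFinSuccAbove (fun _ : Fin (n + 1) => ℝ) l).measurableEmbedding
      (fun p => g (WithLp.toLp 2 p.2) * h p.1)]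
    rfl
  have e3 : ∫ z : Fin n → ℝ, g (WithLp.toLp 2 z) = ∫ y, g y :=
    (PiLp.volume_preserving_toLp (Fin n)).integral_comp
      (MeasurableEquiv.toLp 2 (Fin n → ℝ)).measurableEmbedding g
  rw [e1, e2, Measure.volume_eq_prod]
  simp only [mul_comm (g _) (h _)]
  rw [integral_prod_mul h (fun z : Fin n → ℝ => g (WithLp.toLp 2 z)), e3, mul_comm]

theorem stable_descend {u : Sp (n + 1) → ℝ} (hu : ContDiff ℝ 2 u)
    (hs : Stable u) (l : Fin (n + 1)) (h0 : ∀ x, pd l u x = 0) :
    Stable fun y => u (embL l y) := by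
  intro φ hφ hc
  set c := ∫ t, th t ^ 2 with hcdef
  set c' := ∫ t, deriv th t ^ 2 with hc'
  have hdth : Continuous (deriv th) := (th.contDiff (n := 1)).continuous_deriv le_rfl
  have hcpos : 0 < c := by
    refine ((th.contDiff (n := 1)).continuous.pow 2).integral_pos_of_hasCompactSupport_nonneg_nonzero
      (x := (0 : ℝ)) (HasCompactSupport.intro th.hasCompactSupport fun t ht => by
        simp [image_eq_zero_of_notMem_tsupport ht]) (fun t => sq_nonneg _) ?_
    simp [(th_facts 0).2.2.1 (by simp)]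
  set A := ∫ y, ((∑ q, pd q φ y ^ 2) + (3 * u (embL l y) ^ 2 - 1) * φ y ^ 2) with hA
  set P := ∫ y, φ y ^ 2 with hP
  suffices h : ∀ L : ℝ, 0 < L → 0 ≤ A + P * c' / (c * L ^ 2) by
    have t : Tendsto (fun L : ℝ => A + P * c' / (c * L ^ 2)) atTop (𝓝 (A + 0)) :=
      tendsto_const_nhds.add (Tendsto.const_div_atTop
        (Tendsto.const_mul_atTop hcpos (tendsto_pow_atTop two_ne_zero)) _)
    simpa using ge_of_tendsto t ((eventually_gt_atTop 0).mono h)
  intro L hL
  set Φ : Sp (n + 1) → ℝ := fun x => φ (tlL l x) * th (x l / L) with hΦ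
  have hθ : ContDiff ℝ 1 fun t : ℝ => th (t / L) := th.contDiff.comp (contDiff_id.div_const L)
  have h1 : ContDiff ℝ 1 fun x : Sp (n + 1) => φ (tlL l x) := hφ.comp (tlL l).contDiff
  have h2 : ContDiff ℝ 1 fun x : Sp (n + 1) => th (x l / L) := hθ.comp (coord_contDiff l)
  have hΦ1 : ContDiff ℝ 1 Φ := h1.mul h2
  obtain ⟨ρ, hρ⟩ := hc.isCompact.isBounded.subset_closedBall (0 : Sp n)
  have hΦc : HasCompactSupport Φ := by
    refine HasCompactSupport.intro
      (isCompact_closedBall (0 : Sp (n + 1)) (‖embL l‖ * |ρ| + 4 * L)) fun x hx => ?_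
    by_cases hm : tlL l x ∈ tsupport φ
    · by_cases h4 : 4 ≤ |x l / L|
      · simp [hΦ, (th_facts _).2.2.2 h4]
      · exfalso
        refine hx ?_
        rw [mem_closedBall_zero_iff, decomp l x]
        refine (norm_add_le _ _).trans (add_le_add ((ContinuousLinearMap.le_opNorm _ _).trans
          (mul_le_mul_of_nonneg_left ?_ (norm_nonneg _))) ?_)
        · have := hρ hm
          rw [mem_closedBall_zero_iff] at this
          exact this.trans (le_abs_self ρ)
        · rw [norm_smul, Real.norm_eq_abs, show ‖ev l‖ = 1 by simp [ev], mul_one]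
          rw [not_le, abs_div, abs_of_pos hL, div_lt_iff₀ hL] at h4
          exact h4.le
    · simp [hΦ, image_eq_zero_of_notMem_tsupport hm]
  have h := hs Φ hΦ1 hΦc
  have hpd : ∀ x, ∑ q, pd q Φ x ^ 2
      = φ (tlL l x) ^ 2 * (deriv th (x l / L) / L) ^ 2
        + (∑ i, pd i φ (tlL l x) ^ 2) * th (x l / L) ^ 2 := by
    intro x
    have d1 := h1.differentiable one_ne_zero
    have d2 := h2.differentiable one_ne_zero
    have hd : HasDerivAt (fun t : ℝ => th (t / L)) (deriv th (x l / L) / L) (x l) := by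
      have := (th_hasDerivAt (x l / L)).comp (x l) ((hasDerivAt_id (x l)).div_const L)
      refine this.congr_deriv ?_
      ring
    obtain ⟨p1, p2⟩ := pd_comp_tl l (hφ.differentiable one_ne_zero)
    have q2 : ∀ q, pd q (fun x : Sp (n + 1) => th (x l / L)) x
        = deriv th (x l / L) / L * if q = l then 1 else 0 := fun q => by
      rw [pd_comp (G := fun t : ℝ => th (t / L)) (q := fun x : Sp (n + 1) => x l) hd
        ((coord_contDiff (N := 1) l).differentiable (by norm_num) x), pd_coord]
    rw [Fin.sum_univ_succAbove _ l, Finset.sum_mul]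
    congr 1
    · rw [hΦ, pd_mul d1 d2, q2, p2]
      simp
      ring
    · refine Finset.sum_congr rfl fun i _ => ?_
      rw [hΦ, pd_mul d1 d2, q2, p1]
      simp [Fin.succAbove_ne]
      ring
  have e : ∀ x, (∑ q, pd q Φ x ^ 2) + (3 * u x ^ 2 - 1) * Φ x ^ 2
      = ((∑ i, pd i φ (tlL l x) ^ 2) + (3 * u (embL l (tlL l x)) ^ 2 - 1) * φ (tlL l x) ^ 2)
          * th (x l / L) ^ 2
        + φ (tlL l x) ^ 2 * (deriv th (x l / L) / L) ^ 2 := fun x => by
    rw [hpd, indep l (hu.differentiable two_ne_zero) h0 x, hΦ]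
    simp only [← indep l (hu.differentiable two_ne_zero) h0 x]
    ring
  simp only [e] at h
  have c1 : Continuous fun x : Sp (n + 1) => tlL l x := (tlL l).continuous
  have c2 : Continuous fun x : Sp (n + 1) => x l := (coord_contDiff (N := 1) l).continuous
  have ia : Integrable fun x : Sp (n + 1) =>
      ((∑ i, pd i φ (tlL l x) ^ 2) + (3 * u (embL l (tlL l x)) ^ 2 - 1) * φ (tlL l x) ^ 2)
        * th (x l / L) ^ 2 := by
    refine ((((continuous_finsetSum _ fun i _ => ((pd_cont hφ i).comp c1).pow 2).add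
      (((((hu.continuous.comp ((embL l).continuous.comp c1)).pow 2).const_mul 3).sub
        continuous_const).mul ((hφ.continuous.comp c1).pow 2))).mul
      (((th.contDiff (n := 1)).continuous.comp (c2.div_const L)).pow 2)
      )).integrable_of_hasCompactSupport ?_
    refine HasCompactSupport.intro (isCompact_closedBall (0 : Sp (n + 1)) (‖embL l‖ * |ρ| + 4 * L))
      fun x hx => ?_
    by_cases h4 : 4 ≤ |x l / L|
    · simp [(th_facts _).2.2.2 h4]
    · by_cases hm : tlL l x ∈ tsupport φ
      · exfalso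
        refine hx ?_
        rw [mem_closedBall_zero_iff, decomp l x]
        refine (norm_add_le _ _).trans (add_le_add ((ContinuousLinearMap.le_opNorm _ _).trans
          (mul_le_mul_of_nonneg_left ?_ (norm_nonneg _))) ?_)
        · have := hρ hm
          rw [mem_closedBall_zero_iff] at this
          exact this.trans (le_abs_self ρ)
        · rw [norm_smul, Real.norm_eq_abs, show ‖ev l‖ = 1 by simp [ev], mul_one]
          rw [not_le, abs_div, abs_of_pos hL, div_lt_iff₀ hL] at h4
          exact h4.le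
      · simp [(hcs_zero hm).1, (hcs_zero hm).2]
  have ib : Integrable fun x : Sp (n + 1) => φ (tlL l x) ^ 2 * (deriv th (x l / L) / L) ^ 2 := by
    refine (((hφ.continuous.comp c1).pow 2).mul
      (((hdth.comp (c2.div_const L)).div_const L).pow 2)).integrable_of_hasCompactSupport ?_
    refine HasCompactSupport.intro (isCompact_closedBall (0 : Sp (n + 1)) (‖embL l‖ * |ρ| + 4 * L))
      fun x hx => ?_
    by_cases h4 : 4 < |x l / L|
    · obtain ⟨B, -, hB⟩ := exists_th_bound
      have : deriv th (x l / L) = 0 := by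
        by_contra hne
        linarith [((hB _).2 hne).2]
      simp [this]
    · by_cases hm : tlL l x ∈ tsupport φ
      · exfalso
        refine hx ?_
        rw [mem_closedBall_zero_iff, decomp l x]
        refine (norm_add_le _ _).trans (add_le_add ((ContinuousLinearMap.le_opNorm _ _).trans
          (mul_le_mul_of_nonneg_left ?_ (norm_nonneg _))) ?_)
        · have := hρ hm
          rw [mem_closedBall_zero_iff] at this
          exact this.trans (le_abs_self ρ)
        · rw [norm_smul, Real.norm_eq_abs, show ‖ev l‖ = 1 by simp [ev], mul_one]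
          rw [not_lt, abs_div, abs_of_pos hL, div_le_iff₀ hL] at h4
          exact h4
      · simp [(hcs_zero hm).1]
  rw [integral_add ia ib,
    split_integral l (fun y => (∑ i, pd i φ y ^ 2) + (3 * u (embL l y) ^ 2 - 1) * φ y ^ 2)
      (fun t => th (t / L) ^ 2),
    split_integral l (fun y => φ y ^ 2) (fun t => (deriv th (t / L) / L) ^ 2)] at h
  have i1 : ∫ t, th (t / L) ^ 2 = L * c := by
    rw [Measure.integral_comp_div (fun t => th t ^ 2), abs_of_pos hL, smul_eq_mul]
  have i2 : ∫ t, (deriv th (t / L) / L) ^ 2 = c' / L := by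
    simp only [div_pow]
    rw [integral_div, Measure.integral_comp_div (fun t => deriv th t ^ 2), abs_of_pos hL,
      smul_eq_mul, hc']
    field_simp
  rw [i1, i2] at h
  have e2 : A + P * c' / (c * L ^ 2) = (A * (L * c) + P * (c' / L)) / (L * c) := by
    field_simp
  rw [e2]
  exact div_nonneg h (by positivity)

theorem descend {u : Sp (n + 1) → ℝ} (hu : IsSol ac u) (hs : Stable u)
    (l : Fin (n + 1)) (h0 : ∀ x, pd l u x = 0) :
    IsSol ac (fun y => u (embL l y)) ∧ Stable (fun y => u (embL l y)) ∧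
      (∀ i y, pd i (fun y => u (embL l y)) y = pd (l.succAbove i) u (embL l y)) ∧
      (Par (fun y => u (embL l y)) → Par u) := by
  have hd := hu.reg.differentiable two_ne_zero
  have e1 := fun i => pd_comp_emb l hd i
  have e2 : ∀ i j, pd i (pd j fun y => u (embL l y))
      = fun y => pd (l.succAbove i) (pd (l.succAbove j) u) (embL l y) := fun i j => by
    rw [e1 j, pd_comp_emb l ((pd_contDiff hu.reg _).differentiable one_ne_zero)]
  refine ⟨⟨hu.reg.comp (embL l).contDiff, fun y => ?_⟩, stable_descend hu.reg hs l h0,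
    fun i y => congrFun (e1 i) y, fun hP => ?_⟩
  · have hl : pd l u = fun _ => 0 := funext h0
    rw [← hu.eqn, Fin.sum_univ_succAbove _ l, hl]
    simp only [e2]
    simp [pd]
  · intro x i j q
    set w := fun y => u (embL l y) with hw
    have hwd : ContDiff ℝ 2 w := hu.reg.comp (embL l).contDiff
    have hu' : u = fun x => w (tlL l x) := funext fun x => indep l hd h0 x
    obtain ⟨p1, p2⟩ := pd_comp_tl l (hwd.differentiable two_ne_zero)
    have hz : ∀ q x, pd q (fun _ : Sp (n + 1) => (0 : ℝ)) x = 0 := fun q x => by simp [pd]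
    rw [hu']
    rcases Fin.eq_self_or_eq_succAbove l i with rfl | ⟨i', rfl⟩
    · rw [p2]
      simp [hz]
    rcases Fin.eq_self_or_eq_succAbove l j with rfl | ⟨j', rfl⟩
    · rw [p2]
      simp [hz]
    rw [p1, p1]
    obtain ⟨r1, r2⟩ := pd_comp_tl l ((pd_contDiff hwd j').differentiable one_ne_zero)
    obtain ⟨s1, s2⟩ := pd_comp_tl l ((pd_contDiff hwd i').differentiable one_ne_zero)
    rcases Fin.eq_self_or_eq_succAbove l q with rfl | ⟨q', rfl⟩
    · rw [r2, s2]
      simp
    · rw [r1, s1]
      exact hP _ i' j' q'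

theorem card_descend (l : Fin (n + 1)) (s : Finset (Fin (n + 1))) :
    s.card ≤ (Finset.univ.filter fun i => l.succAbove i ∈ s).card + 1 := by
  refine (Finset.card_le_card (t := insert l ((Finset.univ.filter fun i => l.succAbove i ∈ s).image
    l.succAbove)) fun x hx => ?_).trans ((Finset.card_insert_le _ _).trans
      (Nat.add_le_add_right Finset.card_image_le 1))
  rcases Fin.eq_self_or_eq_succAbove l x with rfl | ⟨i, rfl⟩
  · exact Finset.mem_insert_self _ _
  · exact Finset.mem_insert_of_mem (Finset.mem_image_of_mem _ (by simp [hx]))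

/-- A stable solution depending on at most two variables has a parallel gradient. -/
theorem par_of_zero : ∀ (n : ℕ) (u : Sp n → ℝ), IsSol ac u → (∀ x, |u x| ≤ 1) → Stable u →
    ∀ s : Finset (Fin n), (∀ i ∈ s, ∀ x, pd i u x = 0) → n ≤ s.card + 2 → Par u
  | 0, u, hu, hb, hs, _, _, _ => par_of_dim_two (by norm_num) hu hb hs
  | m + 1, u, hu, hb, hs, s, h0, hcard => by
    rcases Nat.lt_or_ge 2 (m + 1) with hm | hm
    · obtain ⟨l, hl⟩ : s.Nonempty := Finset.card_pos.1 (by omega)
      obtain ⟨a, b, c, d⟩ := descend hu hs l (h0 l hl)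
      refine d (par_of_zero m _ a (fun y => hb _) b (Finset.univ.filter fun i => l.succAbove i ∈ s)
        (fun i hi y => ?_) ?_)
      · rw [c]
        exact h0 _ (Finset.mem_filter.1 hi).2 _
      · have := card_descend l s
        omega
    · exact par_of_dim_two hm hu hb hs

end Vale.Agent.P134R
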