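import Vale.Agent.P134R.Descend

/-!
# P134: energy of one-dimensional profiles and the sliding bound
-/

namespace Vale.Agent.P134R

open MeasureTheory Filter Topology Finset Vale.Agent.P134

variable {n : ℕ}

/-- The energy density. -/
noncomputable def eden (u : Sp n → ℝ) (x : Sp n) : ℝ :=
  gsq Finset.univ u x / 2 + (1 - u x ^ 2) ^ 2 / 4

/-- The Hamiltonian. -/
noncomputable def ham (u : Sp n → ℝ) (x : Sp n) : ℝ :=
  gsq Finset.univ u x / 2 - (1 - u x ^ 2) ^ 2 / 4

theorem pd_half_gsq {u : Sp n → ℝ} (hu : IsSol ac u) (a : ℝ) (q : Fin n) (x : Sp n) :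
    pd q (fun y => gsq Finset.univ u y / 2 + a * ((1 - u y ^ 2) ^ 2 / 4)) x
      = sv Finset.univ u q x + a * (u x ^ 3 - u x) * pd q u x := by
  have h1 := ((gsq_contDiff hu.reg Finset.univ).differentiable one_ne_zero x).hasFDerivAt
  have h2 := (hu.reg.differentiable two_ne_zero x).hasFDerivAt
  have hF : HasDerivAt (fun s : ℝ => a * ((1 - s ^ 2) ^ 2 / 4)) (a * (u x ^ 3 - u x)) (u x) :=
    (((((hasDerivAt_pow 2 (u x)).const_sub 1).pow 2).div_const 4).const_mul a).congr_deriv
      (by push_cast; ring)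
  have h3 := (h1.mul_const (1 / 2)).add (hF.comp_hasFDerivAt x h2)
  have e : (fun y => gsq Finset.univ u y / 2 + a * ((1 - u y ^ 2) ^ 2 / 4))
      = fun y => gsq Finset.univ u y * (1 / 2) + ((fun s : ℝ => a * ((1 - s ^ 2) ^ 2 / 4)) ∘ u) y := by
    funext y
    simp only [Function.comp_apply]
    ring
  rw [e]
  show fderiv ℝ _ x (ev q) = _
  erw [h3.fderiv]
  simp only [_root_.add_apply, _root_.smul_apply, smul_eq_mul]
  show 1 / 2 * pd q (gsq Finset.univ u) x + _ * pd q u x = _
  rw [pd_gsq hu.reg]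
  ring

theorem ham_const {v : Sp n → ℝ} (hv : IsSol ac v) (hP : Par v) (x : Sp n) :
    ham v x = ham v 0 := by
  have e : ham v = fun y => gsq Finset.univ v y / 2 + (-1) * ((1 - v y ^ 2) ^ 2 / 4) := by
    funext y; simp only [ham]; ring
  have hd : Differentiable ℝ (ham v) := by
    rw [e]
    exact (((gsq_contDiff hv.reg _).div_const 2).add (contDiff_const.mul (((contDiff_const.sub
      ((hv.reg.of_le one_le_two).pow 2)).pow 2).div_const 4))).differentiable one_ne_zero
  refine is_const_of_fderiv_eq_zero hd (fun y => ContinuousLinearMap.ext fun w => ?_) x 0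
  rw [fderiv_eq_sum]
  refine Finset.sum_eq_zero fun q _ => mul_eq_zero_of_right _ ?_
  rw [e, pd_half_gsq hv]
  have e1 : sv Finset.univ v q y = ac (v y) * pd q v y := by
    rw [← hv.eqn, sv, Finset.sum_mul]
    refine Finset.sum_congr rfl fun i _ => ?_
    rw [pd_comm hv.reg q i, hP y i q i]
    ring
  rw [e1, ac]
  ring

/-- The test function `1 - v²`: the Hamiltonian is nonnegative. -/
theorem ham_nonneg {v : Sp n → ℝ} (hv : IsSol ac v) (hb : ∀ x, |v x| ≤ 1) (hs : Stable v)
    (hP : Par v) : 0 ≤ ham v 0 := by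
  by_contra hc
  push Not at hc
  set H := ham v 0 with hH
  set w0 := Real.sqrt (-(4 * H)) with hw0
  have hw0p : 0 < w0 := Real.sqrt_pos.2 (by linarith)
  have hv2 : ∀ x, v x ^ 2 ≤ 1 := fun x => (sq_le_one_iff_abs_le_one _).2 (hb x)
  have hw : ∀ x, w0 ≤ 1 - v x ^ 2 := fun x => by
    rw [hw0, Real.sqrt_le_left (by linarith [hv2 x])]
    have := ham_const hv hP x
    rw [← hH] at this
    simp only [ham] at this
    linarith [gsq_nonneg (Finset.univ : Finset (Fin n)) v x]
  have hdv := hv.reg.differentiable two_ne_zero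
  have hv1 : ContDiff ℝ 1 v := hv.reg.of_le one_le_two
  have key : ∀ χ : Sp n → ℝ, ContDiff ℝ 1 χ → HasCompactSupport χ →
      4 * (-H) * w0 * ∫ x, χ x ^ 2 ≤ ∫ x, ∑ q, pd q χ x ^ 2 := by
    intro χ hχ hc'
    have hwd : ContDiff ℝ 1 fun y => 1 - v y ^ 2 := contDiff_const.sub (hv1.pow 2)
    have hφ : ContDiff ℝ 1 fun y => (1 - v y ^ 2) * χ y := hwd.mul hχ
    have h := hs _ hφ hc'.mul_left
    have hψ : ContDiff ℝ 1 fun y => (χ y * χ y) * ((1 - v y ^ 2) * v y) :=
      (hχ.mul hχ).mul (hwd.mul hv1)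
    obtain ⟨iW, hW⟩ := weak_eqn hv hψ hc'.mul_left.mul_right ac_contDiff.continuous
    have iφ : Integrable fun x => (∑ q, pd q (fun y => (1 - v y ^ 2) * χ y) x ^ 2)
        + (3 * v x ^ 2 - 1) * ((1 - v x ^ 2) * χ x) ^ 2 :=
      ((continuous_finsetSum _ fun q _ => (pd_cont hφ q).pow 2).add
        ((((hv1.continuous.pow 2).const_mul 3).sub continuous_const).mul
          (hφ.continuous.pow 2))).integrable_of_hasCompactSupport
        (HasCompactSupport.intro (hc'.mul_left (f := fun y => 1 - v y ^ 2)) fun x hx => by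
          have e := (hcs_zero (φ := fun y => (1 - v y ^ 2) * χ y) hx).1
          have e2 := (hcs_zero (φ := fun y => (1 - v y ^ 2) * χ y) hx).2
          simp [e, e2])
    have i1 : Integrable fun x => χ x ^ 2 := (hχ.continuous.pow 2).integrable_of_hasCompactSupport
      (HasCompactSupport.intro hc' fun x hx => by simp [(hcs_zero hx).1])
    have i2 : Integrable fun x => ∑ q, pd q χ x ^ 2 :=
      (continuous_finsetSum _ fun q _ => (pd_cont hχ q).pow 2).integrable_of_hasCompactSupport
        (HasCompactSupport.intro hc' fun x hx => by simp [(hcs_zero hx).2])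
    have hpt : ∀ x, (4 * (-H) * w0) * χ x ^ 2 + ((∑ q, pd q (fun y => (1 - v y ^ 2) * χ y) x ^ 2)
        + (3 * v x ^ 2 - 1) * ((1 - v x ^ 2) * χ x) ^ 2)
        + 2 * ((∑ q, pd q v x * pd q (fun y => (χ y * χ y) * ((1 - v y ^ 2) * v y)) x)
          + ac (v x) * ((χ x * χ x) * ((1 - v x ^ 2) * v x)))
        ≤ ∑ q, pd q χ x ^ 2 := by
      intro x
      have dw : ∀ q, pd q (fun y => 1 - v y ^ 2) x = -(2 * v x * pd q v x) := fun q => by
        rw [pd_comp (G := fun t : ℝ => 1 - t ^ 2) (q := v)
          (((hasDerivAt_pow 2 (v x)).const_sub 1)) (hdv x)]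
        push_cast
        ring
      have dχ := hχ.differentiable one_ne_zero
      have dwd := hwd.differentiable one_ne_zero
      have e1 : (∑ q, pd q (fun y => (1 - v y ^ 2) * χ y) x ^ 2)
          + 2 * (∑ q, pd q v x * pd q (fun y => (χ y * χ y) * ((1 - v y ^ 2) * v y)) x)
          = (1 - v x ^ 2) ^ 2 * (∑ q, pd q χ x ^ 2)
            + 2 * (1 - v x ^ 2) * χ x ^ 2 * gsq Finset.univ v x := by
        simp only [gsq, Finset.mul_sum, ← Finset.sum_add_distrib]
        refine Finset.sum_congr rfl fun q _ => ?_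
        rw [pd_mul dwd dχ, pd_mul (g := fun y => χ y * χ y) (h := fun y => (1 - v y ^ 2) * v y)
          (dχ.mul dχ) (dwd.mul hdv), pd_mul dχ dχ, pd_mul dwd hdv, dw]
        ring
      have e2 := ham_const hv hP x
      rw [ham] at e2
      have hq : (1 - v x ^ 2) ^ 2 * (∑ q, pd q χ x ^ 2) ≤ ∑ q, pd q χ x ^ 2 :=
        mul_le_of_le_one_left (Finset.sum_nonneg fun _ _ => sq_nonneg _)
          (pow_le_one₀ (by linarith [hv2 x]) (by linarith [sq_nonneg (v x)]))
      have hlow : 4 * (-H) * w0 * χ x ^ 2 ≤ 4 * (-H) * (1 - v x ^ 2) * χ x ^ 2 :=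
        mul_le_mul_of_nonneg_right (mul_le_mul_of_nonneg_left (hw x) (by linarith)) (sq_nonneg _)
      have e3 : (3 * v x ^ 2 - 1) * ((1 - v x ^ 2) * χ x) ^ 2
          + 2 * (ac (v x) * ((χ x * χ x) * ((1 - v x ^ 2) * v x)))
          + 2 * (1 - v x ^ 2) * χ x ^ 2 * gsq Finset.univ v x
          = 4 * H * (1 - v x ^ 2) * χ x ^ 2 := by
        rw [show gsq Finset.univ v x = 2 * H + (1 - v x ^ 2) ^ 2 / 2 by linarith, ac]
        ring
      linarith
    have := integral_mono (((i1.const_mul (4 * (-H) * w0)).add iφ).add (iW.const_mul 2)) i2 hpt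
    simp only [Pi.add_apply] at this
    have i3 : Integrable fun x => 4 * (-H) * w0 * χ x ^ 2
        + ((∑ q, pd q (fun y => (1 - v y ^ 2) * χ y) x ^ 2)
        + (3 * v x ^ 2 - 1) * ((1 - v x ^ 2) * χ x) ^ 2) := (i1.const_mul _).add iφ
    rw [integral_add i3 (iW.const_mul 2), integral_add (i1.const_mul _) iφ, integral_const_mul,
      integral_const_mul, hW] at this
    linarith
  let b : ContDiffBump (0 : Sp n) := ⟨1, 2, one_pos, by norm_num⟩
  set J := ∫ y, (b : Sp n → ℝ) y ^ 2 with hJ
  set G := ∫ y, ∑ q, pd q (b : Sp n → ℝ) y ^ 2 with hG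
  have hb1 : ContDiff ℝ 1 (b : Sp n → ℝ) := b.contDiff
  have hJp : 0 < J := by
    refine (hb1.continuous.pow 2).integral_pos_of_hasCompactSupport_nonneg_nonzero
      (x := (0 : Sp n)) (HasCompactSupport.intro b.hasCompactSupport fun t ht => by
        simp [image_eq_zero_of_notMem_tsupport ht]) (fun t => sq_nonneg _) ?_
    simp [b.one_of_mem_closedBall (show (0 : Sp n) ∈ Metric.closedBall 0 b.rIn by simp [b])]
  have hsc : ∀ R : ℝ, 0 < R → 4 * (-H) * w0 * J ≤ (R⁻¹) ^ 2 * G := by
    intro R hR
    have h := key (fun x => b (R⁻¹ • x)) (hb1.comp (contDiff_const_smul _))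
      (b.hasCompactSupport.comp_smul (inv_ne_zero hR.ne'))
    have e : ∀ q x, pd q (fun x => b (R⁻¹ • x)) x = R⁻¹ * pd q (b : Sp n → ℝ) (R⁻¹ • x) := by
      intro q x
      show fderiv ℝ ((b : Sp n → ℝ) ∘ fun x => R⁻¹ • x) x (ev q) = _
      rw [((hb1.differentiable one_ne_zero (R⁻¹ • x)).hasFDerivAt.comp x
        ((hasFDerivAt_id x).const_smul R⁻¹)).fderiv]
      simp [pd]
    simp only [e, mul_pow, ← Finset.mul_sum] at h
    rw [integral_const_mul, Measure.integral_comp_inv_smul_of_nonneg volume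
        (fun y => (b : Sp n → ℝ) y ^ 2) hR.le,
      Measure.integral_comp_inv_smul_of_nonneg volume
        (fun y => ∑ q, pd q (b : Sp n → ℝ) y ^ 2) hR.le, smul_eq_mul, smul_eq_mul, ← hJ, ← hG] at h
    refine le_of_mul_le_mul_left ?_ (pow_pos hR (Module.finrank ℝ (Sp n)))
    linarith
  have hpos : 0 < 4 * (-H) * w0 * J := by
    have : 0 < -H := by linarith
    positivity
  have hlim : Tendsto (fun R : ℝ => (R⁻¹) ^ 2 * G) atTop (𝓝 0) := by
    simpa using ((tendsto_inv_atTop_zero (𝕜 := ℝ)).pow 2).mul_const G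
  linarith [ge_of_tendsto hlim ((eventually_gt_atTop 0).mono hsc)]

/-- The antiderivative of `(1 - s²)/√2`. -/
noncomputable def Phi (s : ℝ) : ℝ := (s - s ^ 3 / 3) / Real.sqrt 2

theorem Phi_hasDerivAt (s : ℝ) : HasDerivAt Phi ((1 - s ^ 2) / Real.sqrt 2) s :=
  (((hasDerivAt_id' s).sub ((hasDerivAt_pow 3 s).div_const 3)).div_const _).congr_deriv
    (by push_cast; ring)

theorem Phi_le {s : ℝ} (hs : |s| ≤ 1) : |Phi s| ≤ 1 := by
  obtain ⟨a, b⟩ := abs_le.1 hs
  have h2 : 1 ≤ Real.sqrt 2 := Real.one_le_sqrt.2 (by norm_num)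
  rw [Phi, abs_div, abs_of_pos (by linarith : (0 : ℝ) < Real.sqrt 2), div_le_one (by linarith)]
  refine le_trans ?_ h2
  rw [abs_le]
  constructor <;> nlinarith [mul_nonneg (sub_nonneg.2 b) (neg_le_iff_add_nonneg.1 a),
    sq_nonneg s, sq_nonneg (s - 1), sq_nonneg (s + 1)]

/-- The energy of a stable profile with parallel gradient is at most that of one interface. -/
theorem profile_energy {v : Sp n → ℝ} (hv : IsSol ac v) (hb : ∀ x, |v x| ≤ 1) (hs : Stable v)
    (hP : Par v) {ζ : Sp n → ℝ} (hζ : ContDiff ℝ 1 ζ) (hc : HasCompactSupport ζ) :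
    ∫ x, ζ x * eden v x ≤ ∫ x, ∑ q, |pd q ζ x| := by
  set W := gsq Finset.univ v with hW
  set H := ham v 0 with hH
  have hH0 : 0 ≤ H := ham_nonneg hv hb hs hP
  have hrel : ∀ x, W x = 2 * H + (1 - v x ^ 2) ^ 2 / 2 := fun x => by
    have := ham_const hv hP x
    rw [ham] at this
    linarith
  have hdv := hv.reg.differentiable two_ne_zero
  have hj : ∀ i, ContDiff ℝ 1 (pd i v) := pd_contDiff hv.reg
  have hG0 : 0 ≤ ∫ x, ∑ q, |pd q ζ x| :=
    integral_nonneg fun x => Finset.sum_nonneg fun q _ => abs_nonneg _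
  by_cases hz : ∃ x0, W x0 = 0
  · obtain ⟨x0, hx0⟩ := hz
    have h0 := hrel x0
    rw [hx0] at h0
    have hH' : H = 0 := by nlinarith [sq_nonneg (1 - v x0 ^ 2)]
    have hw0 : 1 - v x0 ^ 2 = 0 := by
      refine (pow_eq_zero_iff two_ne_zero).1 ?_
      linarith
    have hall : ∀ x, 1 - v x ^ 2 = 0 := by
      intro x
      set g : ℝ → ℝ := fun t => 1 - v (x0 + t • (x - x0)) ^ 2 with hg
      have hd : ∀ t, HasDerivAt g (-(2 * v (x0 + t • (x - x0))
          * fderiv ℝ v (x0 + t • (x - x0)) (x - x0))) t := by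
        intro t
        have h1 : HasDerivAt (fun t : ℝ => x0 + t • (x - x0)) (x - x0) t := by
          simpa using ((hasDerivAt_id t).smul_const (x - x0)).const_add x0
        have h2 := (hdv _).hasFDerivAt.comp_hasDerivAt t h1
        refine ((h2.pow 2).const_sub 1).congr_deriv ?_
        simp only [Function.comp_apply]
        push_cast
        ring
      have hbd : ∀ t ∈ Set.Ico (0 : ℝ) 1, ‖-(2 * v (x0 + t • (x - x0))
          * fderiv ℝ v (x0 + t • (x - x0)) (x - x0))‖ ≤ 2 * (n * ‖x - x0‖) * ‖g t‖ := by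
        intro t _
        set y := x0 + t • (x - x0)
        have hy : W y = g t ^ 2 / 2 := by rw [hrel, hH']; simp [hg, y]
        have hc1 : ∀ i, |pd i v y| ≤ |g t| := fun i => by
          refine sq_le_sq.1 ?_
          have : pd i v y ^ 2 ≤ W y := Finset.single_le_sum (f := fun i => pd i v y ^ 2)
            (fun i _ => sq_nonneg _) (Finset.mem_univ i)
          nlinarith [sq_nonneg (g t)]
        have hsum : |fderiv ℝ v y (x - x0)| ≤ n * ‖x - x0‖ * |g t| := by
          rw [fderiv_eq_sum]
          refine (Finset.abs_sum_le_sum_abs _ _).trans ?_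
          calc ∑ q, |(x - x0) q * pd q v y| ≤ ∑ _q : Fin n, ‖x - x0‖ * |g t| := by
                refine Finset.sum_le_sum fun q _ => ?_
                rw [abs_mul]
                exact mul_le_mul (PiLp.norm_apply_le (x - x0) q) (hc1 q) (abs_nonneg _) (norm_nonneg _)
            _ = _ := by simp; ring
        rw [Real.norm_eq_abs, Real.norm_eq_abs, abs_neg, abs_mul, abs_mul, abs_two]
        have hv1 := hb y
        nlinarith [abs_nonneg (v y), abs_nonneg (fderiv ℝ v y (x - x0)),
          mul_le_mul hv1 hsum (abs_nonneg _) zero_le_one]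
      have := eq_zero_of_abs_deriv_le_mul_abs_self_of_eq_zero_right
        (f := g) (a := (0 : ℝ)) (b := 1)
        (fun t _ => (hd t).continuousAt.continuousWithinAt) (fun t _ => (hd t).hasDerivWithinAt)
        (by simp [hg, hw0]) hbd 1 (Set.right_mem_Icc.2 zero_le_one)
      simpa [hg] using this
    have he : ∀ x, ζ x * eden v x = 0 := fun x => by
      have := hrel x
      rw [hall x, hH'] at this
      simp only [eden, hall x]
      rw [show gsq Finset.univ v x = W x from rfl, this]
      simp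
    simp only [he, integral_zero]
    exact hG0
  push Not at hz
  have hWp : ∀ x, 0 < W x := fun x => lt_of_le_of_ne (gsq_nonneg _ _ x) (hz x).symm
  set N : Fin n → Sp n → ℝ := fun i x => pd i v x / Real.sqrt (W x) with hN
  have hsd : ∀ x, DifferentiableAt ℝ (fun y => Real.sqrt (W y)) x := fun x =>
    ((gsq_contDiff hv.reg _).differentiable one_ne_zero x).sqrt (hz x)
  have hsne : ∀ x, Real.sqrt (W x) ≠ 0 := fun x => (Real.sqrt_pos.2 (hWp x)).ne'
  have hNd : ∀ i, Differentiable ℝ (N i) := fun i x =>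
    ((hj i).differentiable one_ne_zero x).mul ((hsd x).inv (hsne x))
  have hN0 : ∀ i x, N i x = N i 0 := by
    intro i x
    refine is_const_of_fderiv_eq_zero (hNd i) (fun y => ContinuousLinearMap.ext fun w => ?_) x 0
    rw [fderiv_eq_sum]
    refine Finset.sum_eq_zero fun q _ => mul_eq_zero_of_right _ ?_
    have hsq : pd q (fun y => (Real.sqrt (W y))⁻¹) y
        = -(sv Finset.univ v q y / Real.sqrt (W y)) / Real.sqrt (W y) ^ 2 := by
      rw [pd_inv (fun z => hsd z) hsne, pd_comp (G := fun t => Real.sqrt t) (q := W)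
        (Real.hasDerivAt_sqrt (hz y)) ((gsq_contDiff hv.reg _).differentiable one_ne_zero y),
        hW, pd_gsq hv.reg]
      field_simp
    have hmul : N i = fun y => pd i v y * (Real.sqrt (W y))⁻¹ := by
      funext z; simp [hN, div_eq_mul_inv]
    rw [hmul, pd_mul (g := pd i v) (h := fun z => (Real.sqrt (W z))⁻¹)
      ((hj i).differentiable one_ne_zero) (fun z => (hsd z).inv (hsne z)), hsq]
    have hkey : pd q (pd i v) y * W y = pd i v y * sv Finset.univ v q y := by
      simp only [hW, gsq, sv, Finset.mul_sum]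
      refine Finset.sum_congr rfl fun j _ => ?_
      linear_combination (pd j v y) * (hP y j i q)
    have h2 : Real.sqrt (W y) ^ 2 = W y := Real.sq_sqrt (hWp y).le
    field_simp
    rw [h2, hkey]
    simp
  set a : Fin n → ℝ := fun i => N i 0 with ha
  have hgrad : ∀ i x, pd i v x = a i * Real.sqrt (W x) := fun i x => by
    simp only [ha]
    rw [← hN0 i x]
    simp only [hN]
    rw [div_mul_cancel₀ _ (hsne x)]
  have ha1 : ∑ i, a i ^ 2 = 1 := by
    have : W 0 = ∑ i, pd i v 0 ^ 2 := rfl
    simp only [ha, hN, div_pow, ← Finset.sum_div, ← this, Real.sq_sqrt (hWp 0).le]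
    exact div_self (hz 0)
  set A : Sp n := ∑ i, a i • ev i with hA
  have hA' : ∀ i, A i = a i := fun i => by simp [hA, ev_apply]
  have hdir : ∀ x, fderiv ℝ v x A = Real.sqrt (W x) := fun x => by
    rw [fderiv_eq_sum]
    simp only [hA', hgrad]
    rw [Finset.sum_congr rfl fun i _ => show a i * (a i * Real.sqrt (W x))
      = a i ^ 2 * Real.sqrt (W x) by ring, ← Finset.sum_mul, ha1, one_mul]
  have hHz : H = 0 := by
    refine le_antisymm ?_ hH0
    by_contra hc'
    push Not at hc'
    set s := Real.sqrt (2 * H) with hs'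
    have hs0 : 0 < s := Real.sqrt_pos.2 (by linarith)
    have hd : ∀ t : ℝ, HasDerivAt (fun t : ℝ => v (t • A)) (Real.sqrt (W (t • A))) t := fun t => by
      rw [← hdir]
      exact (hdv _).hasFDerivAt.comp_hasDerivAt t (by simpa using (hasDerivAt_id t).smul_const A)
    have := mul_sub_le_image_sub_of_le_deriv (f := fun t : ℝ => v (t • A)) (C := s)
      (fun t => (hd t).differentiableAt)
      (fun t => by
        rw [(hd t).deriv, hs', hrel]
        exact Real.sqrt_le_sqrt (by nlinarith [sq_nonneg (1 - v (t • A) ^ 2)]))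
      (show (0 : ℝ) ≤ 3 / s by positivity)
    rw [sub_zero, mul_div_cancel₀ _ hs0.ne'] at this
    linarith [abs_le.1 (hb ((3 / s) • A)), abs_le.1 (hb ((0 : ℝ) • A))]
  have hedge : ∀ x, eden v x = (1 - v x ^ 2) / Real.sqrt 2 * fderiv ℝ v x A := by
    intro x
    have h1 : Real.sqrt (W x) = (1 - v x ^ 2) / Real.sqrt 2 := by
      rw [hrel, hHz, mul_zero, zero_add, Real.sqrt_div (sq_nonneg _), Real.sqrt_sq
        (by linarith [(sq_le_one_iff_abs_le_one _).2 (hb x)])]
    rw [hdir, h1, eden, show gsq Finset.univ v x = W x from rfl, hrel, hHz]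
    have h2 : Real.sqrt 2 ≠ 0 := by positivity
    field_simp
    rw [Real.sq_sqrt (by norm_num)]
    ring
  set g : Sp n → ℝ := fun x => Phi (v x) with hg
  have hg1 : ContDiff ℝ 1 g :=
    ((contDiff_id.sub ((contDiff_id.pow 3).div_const 3)).div_const _).comp (hv.reg.of_le one_le_two)
  have hgd : ∀ q x, pd q g x = (1 - v x ^ 2) / Real.sqrt 2 * pd q v x := fun q x =>
    pd_comp (Phi_hasDerivAt (v x)) (hdv x) q
  have e : ∀ x, ζ x * eden v x = ∑ q, a q * (pd q g x * ζ x) := fun x => by
    rw [hedge, fderiv_eq_sum, Finset.mul_sum, Finset.mul_sum]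
    refine Finset.sum_congr rfl fun q _ => ?_
    rw [hgd, hA']
    ring
  simp only [e]
  have i1 : ∀ q, Integrable fun x => a q * (pd q g x * ζ x) := fun q =>
    (((pd_cont hg1 q).mul hζ.continuous).integrable_of_hasCompactSupport hc.mul_left).const_mul _
  have i2 : ∀ q, Integrable fun x => |pd q ζ x| := fun q =>
    (pd_cont hζ q).abs.integrable_of_hasCompactSupport
      ((pd_compact hc q).comp_left (g := fun t : ℝ => |t|) abs_zero)
  rw [integral_finsetSum _ fun q _ => i1 q, integral_finsetSum _ fun q _ => i2 q]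
  refine Finset.sum_le_sum fun q _ => ?_
  rw [integral_const_mul, show (∫ x, pd q g x * ζ x) = -∫ x, g x * pd q ζ x by
    rw [ibp hg1 hζ hc q, neg_neg], mul_neg, ← integral_const_mul, ← integral_neg]
  refine integral_mono (((hg1.continuous.mul (pd_cont hζ q)).integrable_of_hasCompactSupport
    (pd_compact hc q).mul_left).const_mul _).neg (i2 q) fun x => ?_
  have ha2 : |a q| ≤ 1 := (sq_le_one_iff_abs_le_one _).1
    (ha1 ▸ Finset.single_le_sum (f := fun i => a i ^ 2) (fun i _ => sq_nonneg _) (Finset.mem_univ q))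
  show -(a q * (g x * pd q ζ x)) ≤ |pd q ζ x|
  refine (neg_le_abs _).trans ?_
  rw [abs_mul, abs_mul]
  calc |a q| * (|g x| * |pd q ζ x|) ≤ 1 * (1 * |pd q ζ x|) :=
        mul_le_mul ha2 (mul_le_mul_of_nonneg_right (Phi_le (hb x)) (abs_nonneg _)) (by positivity)
          zero_le_one
    _ = _ := by ring

/-- Sliding: the energy of a monotone solution exceeds that of its limit by a boundary layer. -/
theorem sliding_gap {u v : Sp n → ℝ} (hu : IsSol ac u) (hb : ∀ x, |u x| ≤ 1) (l : Fin n)
    (hpos : ∀ x, 0 < pd l u x) {L : ℝ} (hL0 : 0 ≤ L) (hg : ∀ x i, |pd i u x| ≤ L)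
    (hlim : ∀ x, Tendsto (fun N : ℕ => u (x + (N : ℝ) • ev l)) atTop (𝓝 (v x)))
    (hlim1 : ∀ x i, Tendsto (fun N : ℕ => pd i u (x + (N : ℝ) • ev l)) atTop (𝓝 (pd i v x)))
    {ζ : Sp n → ℝ} (hζ : ContDiff ℝ 1 ζ) (hc : HasCompactSupport ζ) (hζ0 : ∀ x, 0 ≤ ζ x) :
    ∫ x, ζ x * eden u x ≤ (∫ x, ζ x * eden v x) + 2 * L * ∫ x, ∑ q, |pd q ζ x| := by
  set Q : Sp n → ℝ := fun x => ∑ q, |pd q ζ x| with hQ
  have hQc : Continuous Q := continuous_finsetSum _ fun q _ => (pd_cont hζ q).abs
  have hQs : HasCompactSupport Q :=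
    HasCompactSupport.intro hc fun x hx => by simp [hQ, (hcs_zero hx).2]
  have hu1 : ContDiff ℝ 1 u := hu.reg.of_le one_le_two
  have he1 : ContDiff ℝ 1 (eden u) :=
    ((gsq_contDiff hu.reg _).div_const 2).add (((contDiff_const.sub (hu1.pow 2)).pow 2).div_const 4)
  set I : ℝ → ℝ := fun h => (∫ y, eden u (y - h • ev l) * ζ y) with hI
  set K : ℝ → ℝ := fun h => (∫ y, u (y - h • ev l) * Q y) with hK
  have hder : ∀ h, HasDerivAt (fun h => I h + L * K h)
      (-(∫ y, pd l (eden u) (y - h • ev l) * ζ y) + L * -(∫ y, pd l u (y - h • ev l) * Q y)) h := by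
    intro h
    have hsub : ∀ y : Sp n, y - h • ev l = y + (-(h • ev l)) := fun y => sub_eq_add_neg _ _
    have d1 := hasDerivAt_shift (G := fun y => eden u (y - h • ev l))
      (he1.comp (contDiff_id.sub contDiff_const)) hζ.continuous hc l
    have d2 := hasDerivAt_shift (G := fun y => u (y - h • ev l))
      (hu1.comp (contDiff_id.sub contDiff_const)) hQc hQs l
    have p : ∀ g : Sp n → ℝ, pd l (fun y => g (y - h • ev l)) = fun y => pd l g (y - h • ev l) :=
      fun g => by simp only [hsub]; exact pd_shift g _ l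
    rw [p] at d1 d2
    have d := d1.add (d2.const_mul L)
    have d' : HasDerivAt (fun h' : ℝ => I h' + L * K h')
        (-(∫ y, pd l (eden u) (y - h • ev l) * ζ y)
          + L * -(∫ y, pd l u (y - h • ev l) * Q y)) (h + 0) := by
      rw [add_zero]
      have := HasDerivAt.comp_sub_const h h (by rw [sub_self]; exact d)
      refine this.congr_of_eventuallyEq (Eventually.of_forall fun h' => ?_)
      simp only [hI, hK, sub_sub, ← add_smul, sub_add_cancel, Pi.add_apply]
    simpa using d'
  have hanti : Antitone fun h => I h + L * K h := by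
    refine antitone_of_deriv_nonpos (fun h => (hder h).differentiableAt) fun h => ?_
    rw [(hder h).deriv]
    have hs := sol_shift hu (-(h • ev l))
    simp only [← sub_eq_add_neg] at hs
    have hp : ∀ q, pd q (fun y => u (y - h • ev l)) = fun y => pd q u (y - h • ev l) := fun q => by
      simp only [sub_eq_add_neg]; exact pd_shift u _ q
    have hul : ContDiff ℝ 1 fun y => pd l u (y - h • ev l) :=
      (pd_contDiff hu.reg l).comp (contDiff_id.sub contDiff_const)
    have hψ : ContDiff ℝ 1 fun y => ζ y * pd l u (y - h • ev l) := hζ.mul hul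
    obtain ⟨iW, hW⟩ := weak_eqn hs hψ hc.mul_right ac_contDiff.continuous
    have i1 : Integrable fun y => pd l (eden u) (y - h • ev l) * ζ y :=
      (((pd_cont he1 l).comp (continuous_id.sub continuous_const)).mul
        hζ.continuous).integrable_of_hasCompactSupport hc.mul_left
    have i2 : Integrable fun y => pd l u (y - h • ev l) * Q y :=
      (hul.continuous.mul hQc).integrable_of_hasCompactSupport hQs.mul_left
    have hpt : ∀ y, ((∑ q, pd q (fun y => u (y - h • ev l)) y
          * pd q (fun y => ζ y * pd l u (y - h • ev l)) y)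
        + ac (u (y - h • ev l)) * (ζ y * pd l u (y - h • ev l)))
        ≤ pd l (eden u) (y - h • ev l) * ζ y + L * (pd l u (y - h • ev l) * Q y) := by
      intro y
      set z := y - h • ev l with hz
      have e1 : eden u = fun y => gsq Finset.univ u y / 2 + 1 * ((1 - u y ^ 2) ^ 2 / 4) := by
        funext y; simp [eden]
      have e2 : ∀ q, pd q (fun y => ζ y * pd l u (y - h • ev l)) y
          = pd q ζ y * pd l u z + ζ y * pd q (pd l u) z := fun q => by
        rw [pd_mul (hζ.differentiable one_ne_zero) (hul.differentiable one_ne_zero)]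
        simp only [sub_eq_add_neg, pd_shift]
        simp only [← sub_eq_add_neg, ← hz]
      simp only [e2, hp, ← hz, mul_add, Finset.sum_add_distrib]
      rw [e1, pd_half_gsq hu, sv, ac, hQ]
      simp only [Finset.mul_sum, Finset.sum_mul, add_mul]
      have e3 : ∑ q, pd q u z * (ζ y * pd q (pd l u) z) = ∑ q, pd q u z * pd l (pd q u) z * ζ y :=
        Finset.sum_congr rfl fun q _ => by rw [pd_comm hu.reg q l]; ring
      have e4 : ∑ q, pd q u z * (pd q ζ y * pd l u z) ≤ ∑ q, L * (pd l u z * |pd q ζ y|) := by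
        refine Finset.sum_le_sum fun q _ => ?_
        refine (le_abs_self _).trans ?_
        rw [abs_mul, abs_mul, abs_of_pos (hpos z)]
        calc |pd q u z| * (|pd q ζ y| * pd l u z) ≤ L * (|pd q ζ y| * pd l u z) :=
              mul_le_mul_of_nonneg_right (hg z q) (by have := hpos z; positivity)
          _ = _ := by ring
      linarith
    have := integral_mono iW (i1.add (i2.const_mul L)) hpt
    simp only [Pi.add_apply] at this
    rw [hW, integral_add i1 (i2.const_mul L), integral_const_mul] at this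
    linarith
  have hIlim : Tendsto (fun N : ℕ => I (-(N : ℝ))) atTop (𝓝 (∫ y, eden v y * ζ y)) := by
    have hb0 : ∀ x, |eden u x| ≤ n * L ^ 2 + 1 := fun x => by
      have h : gsq Finset.univ u x ≤ ∑ _i : Fin n, L ^ 2 := Finset.sum_le_sum fun i _ =>
        sq_le_sq' (abs_le.1 (hg x i)).1 (abs_le.1 (hg x i)).2
      simp only [Finset.sum_const, Finset.card_univ, Fintype.card_fin, nsmul_eq_mul] at h
      have h2 := (sq_le_one_iff_abs_le_one _).2 (hb x)
      have h3 : (1 - u x ^ 2) ^ 2 ≤ 1 := pow_le_one₀ (by linarith) (by linarith [sq_nonneg (u x)])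
      rw [eden, abs_le]
      constructor <;> nlinarith [gsq_nonneg (Finset.univ : Finset (Fin n)) u x,
        sq_nonneg (1 - u x ^ 2)]
    simp only [hI, neg_smul, sub_neg_eq_add]
    refine tendsto_integral_of_dominated_convergence (fun y => (n * L ^ 2 + 1) * ζ y) (fun N => ?_)
      ((hζ.continuous.integrable_of_hasCompactSupport hc).const_mul _) (fun N => ?_) ?_
    · exact ((he1.continuous.comp (continuous_id.add continuous_const)).mul
        hζ.continuous).aestronglyMeasurable
    · refine Eventually.of_forall fun y => ?_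
      rw [Real.norm_eq_abs, abs_mul, abs_of_nonneg (hζ0 y)]
      exact mul_le_mul_of_nonneg_right (hb0 _) (hζ0 y)
    · refine Eventually.of_forall fun y => Tendsto.mul_const _ ?_
      exact ((tendsto_finsetSum _ fun i _ => (hlim1 y i).pow 2).div_const 2).add
        ((((hlim y).pow 2).const_sub 1).pow 2 |>.div_const 4)
  have hKb : ∀ h, |K h| ≤ ∫ y, Q y := fun h => by
    rw [← Real.norm_eq_abs]
    refine norm_integral_le_of_norm_le (hQc.integrable_of_hasCompactSupport hQs)
      (Eventually.of_forall fun y => ?_)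
    rw [Real.norm_eq_abs, abs_mul, abs_of_nonneg (show 0 ≤ Q y from
      Finset.sum_nonneg fun q _ => abs_nonneg _)]
    exact mul_le_of_le_one_left (Finset.sum_nonneg fun q _ => abs_nonneg _) (hb _)
  have hN : ∀ N : ℕ, I 0 ≤ I (-(N : ℝ)) + 2 * L * ∫ y, Q y := fun N => by
    have h := hanti (show (-(N : ℝ)) ≤ 0 by simp)
    simp only at h
    have a := abs_le.1 (hKb 0)
    have b := abs_le.1 (hKb (-(N : ℝ)))
    nlinarith [mul_le_mul_of_nonneg_left a.1 hL0, mul_le_mul_of_nonneg_left b.2 hL0]
  have hfin := ge_of_tendsto' (hIlim.add_const (2 * L * ∫ y, Q y)) hN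
  simp only [hI, zero_smul, sub_zero, mul_comm (eden _ _) (ζ _)] at hfin
  exact hfin

/-- Sliding: the energy of a monotone solution is that of a boundary layer. -/
theorem sliding {u : Sp n → ℝ} (hu : IsSol ac u) (hb : ∀ x, |u x| ≤ 1) (l : Fin n)
    (hpos : ∀ x, 0 < pd l u x)
    (hprof : ∀ v, IsSol ac v → (∀ x, |v x| ≤ 1) → Stable v → (∀ x, pd l v x = 0) →
      (∀ x, Tendsto (fun N : ℕ => u (x + (N : ℝ) • ev l)) atTop (𝓝 (v x))) →
      (∀ x i, Tendsto (fun N : ℕ => pd i u (x + (N : ℝ) • ev l)) atTop (𝓝 (pd i v x))) → Par v) :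
    ∃ C : ℝ, 0 ≤ C ∧ ∀ ζ : Sp n → ℝ, ContDiff ℝ 1 ζ → HasCompactSupport ζ → (∀ x, 0 ≤ ζ x) →
      ∫ x, ζ x * eden u x ≤ C * ∫ x, ∑ q, |pd q ζ x| := by
  obtain ⟨v, hv, hvb, hvs, hv0, hlim, hlim1⟩ := profile hu hb l hpos
  have hP := hprof v hv hvb hvs hv0 hlim hlim1
  obtain ⟨L, hL0, hg, -⟩ := reg_bounds hu hb
  refine ⟨1 + 2 * L, by linarith, fun ζ hζ hc hζ0 => ?_⟩
  have h1 := sliding_gap hu hb l hpos hL0 hg hlim hlim1 hζ hc hζ0
  have h2 := profile_energy hv hvb hvs hP hζ hc
  linarith

theorem eden_ge (u : Sp n → ℝ) (x : Sp n) : gsq Finset.univ u x ≤ 2 * eden u x := by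
  rw [eden]
  linarith [sq_nonneg (1 - u x ^ 2)]

/-- A monotone solution depending on at most three variables has a parallel gradient. -/
theorem par_of_zero_three : ∀ (n : ℕ) (u : Sp n → ℝ), IsSol ac u → (∀ x, |u x| ≤ 1) →
    ∀ e : Fin n, (∀ x, 0 < pd e u x) →
    ∀ s : Finset (Fin n), (∀ i ∈ s, ∀ x, pd i u x = 0) → n ≤ s.card + 3 → Par u
  | 0, _, _, _, e, _, _, _, _ => Fin.elim0 e
  | m + 1, u, hu, hb, e, hpos, s, h0, hcard => by
    rcases Nat.lt_or_ge 3 (m + 1) with hm | hm
    · obtain ⟨l, hl⟩ : s.Nonempty := Finset.card_pos.1 (by omega)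
      obtain ⟨a, b, c, d⟩ := descend hu (stable_of_pos hu hpos) l (h0 l hl)
      rcases Fin.eq_self_or_eq_succAbove l e with rfl | ⟨e', rfl⟩
      · exact absurd (h0 _ hl 0) (hpos 0).ne'
      refine d (par_of_zero_three m _ a (fun y => hb _) e' (fun y => by rw [c]; exact hpos _)
        (Finset.univ.filter fun i => l.succAbove i ∈ s) (fun i hi y => ?_) ?_)
      · rw [c]
        exact h0 _ (Finset.mem_filter.1 hi).2 _
      · have := card_descend l s
        omega
    · obtain ⟨C, hC0, hC⟩ := sliding hu hb e hpos fun v hv hvb hvs hv0 _ _ =>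
        par_of_zero (m + 1) v hv hvb hvs {e} (fun i hi => Finset.mem_singleton.1 hi ▸ hv0)
          (by simpa using hm)
      refine par_of_quadratic hu hb (stable_of_pos hu hpos) ?_
      obtain ⟨B, hB0, hB⟩ := exists_th_bound
      obtain ⟨V, hV0, hV⟩ := ball_volume (m + 1)
      refine ⟨2 * C * ((m + 1 : ℕ) * (4 * B) * (V * 2 ^ (m + 1))), fun R hR => ?_⟩
      have hR0 : 0 < R := by linarith
      set ζ : Sp (m + 1) → ℝ := fun x => sc R (nsq x) with hζdef
      have hζ : ContDiff ℝ 1 ζ := (sc_contDiff R).comp nsq_contDiff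
      have hζ0 : ∀ x, 0 ≤ ζ x := fun x => (sc_facts hR0 (nsq_nonneg x)).1
      have hζs : ∀ x : Sp (m + 1), 2 * R < ‖x‖ → ζ x = 0 := fun x hx =>
        (sc_facts hR0 (nsq_nonneg x)).2.2.2 (by
          rw [nsq_eq]; nlinarith [norm_nonneg x])
      have hζc : HasCompactSupport ζ := HasCompactSupport.intro
        (isCompact_closedBall (0 : Sp (m + 1)) (2 * R)) fun x hx => hζs x (by simpa using hx)
      have hed : Continuous (eden u) :=
        ((gsq_contDiff hu.reg _).continuous.div_const 2).add
          (((continuous_const.sub (hu.reg.continuous.pow 2)).pow 2).div_const 4)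
      have hlow : ∫ x, (Metric.closedBall (0 : Sp (m + 1)) R).indicator (gsq Finset.univ u) x
          ≤ 2 * ∫ x, ζ x * eden u x := by
        rw [← integral_const_mul]
        refine integral_mono (((gsq_contDiff hu.reg _).continuous.continuousOn.integrableOn_compact
          (isCompact_closedBall _ _)).integrable_indicator measurableSet_closedBall)
          (((hζ.continuous.mul hed).integrable_of_hasCompactSupport hζc.mul_right).const_mul 2)
          fun x => ?_
        by_cases hx : x ∈ Metric.closedBall (0 : Sp (m + 1)) R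
        · rw [Set.indicator_of_mem hx, show ζ x = 1 from (sc_facts hR0 (nsq_nonneg x)).2.2.1 (by
            rw [mem_closedBall_zero_iff] at hx
            rw [nsq_eq]; nlinarith [norm_nonneg x]), one_mul]
          exact eden_ge u x
        · rw [Set.indicator_of_notMem hx]
          have := gsq_nonneg (Finset.univ : Finset (Fin (m + 1))) u x
          have := eden_ge u x
          exact mul_nonneg two_pos.le (mul_nonneg (hζ0 x) (by linarith))
      have hup : ∫ x, ∑ q, |pd q ζ x| ≤ (m + 1 : ℕ) * (4 * B) * (V * 2 ^ (m + 1)) * R ^ 2 := by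
        have hpt : ∀ x, ∑ q, |pd q ζ x| ≤ (Metric.closedBall (0 : Sp (m + 1)) (2 * R)).indicator
            (fun _ => ((m + 1 : ℕ) : ℝ) * (4 * B) / R) x := by
          intro x
          have hd : ∀ q, pd q ζ x = sc' R (nsq x) * (2 * x q) := fun q => by
            rw [← pd_nsq]
            exact pd_comp (sc_hasDerivAt R (nsq x)) (nsq_contDiff.differentiable one_ne_zero x) q
          obtain ⟨c1, c2⟩ := sc'_bound hR0 (nsq_nonneg x) hB
          by_cases hx : x ∈ Metric.closedBall (0 : Sp (m + 1)) (2 * R)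
          · rw [Set.indicator_of_mem hx]
            rw [mem_closedBall_zero_iff] at hx
            refine (Finset.sum_le_sum (g := fun _ => 4 * B / R) fun q _ => ?_).trans
              (le_of_eq (by simp; ring))
            rw [hd, abs_mul, abs_mul, abs_two]
            calc |sc' R (nsq x)| * (2 * |x q|) ≤ B / R ^ 2 * (2 * (2 * R)) :=
                  mul_le_mul c1 (mul_le_mul_of_nonneg_left
                    ((PiLp.norm_apply_le x q).trans hx) two_pos.le) (by positivity)
                    (by positivity)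
              _ = _ := by field_simp; ring
          · rw [Set.indicator_of_notMem hx]
            rw [mem_closedBall_zero_iff, not_le] at hx
            have : sc' R (nsq x) = 0 := by
              by_contra hne
              have := (c2 hne).2
              rw [nsq_eq] at this
              nlinarith [norm_nonneg x]
            simp [hd, this]
        refine (integral_mono_of_nonneg (Eventually.of_forall fun x =>
          Finset.sum_nonneg fun q _ => abs_nonneg _)
          (((continuous_const : Continuous fun _ : Sp (m + 1) => ((m + 1 : ℕ) : ℝ) * (4 * B) / R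
            ).continuousOn.integrableOn_compact (isCompact_closedBall _ _)).integrable_indicator
            measurableSet_closedBall) (Eventually.of_forall hpt)).trans ?_
        rw [integral_indicator measurableSet_closedBall, setIntegral_const, smul_eq_mul]
        have hp : R ^ (m + 1) ≤ R ^ 3 := pow_le_pow_right₀ hR hm
        calc (volume : Measure (Sp (m + 1))).real (Metric.closedBall 0 (2 * R))
              * (((m + 1 : ℕ) : ℝ) * (4 * B) / R)
            ≤ V * (2 ^ (m + 1) * R ^ 3) * (((m + 1 : ℕ) : ℝ) * (4 * B) / R) := by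
              refine mul_le_mul_of_nonneg_right ((hV _ (by linarith)).trans ?_) (by positivity)
              rw [mul_pow]
              gcongr
          _ = _ := by field_simp
      have := mul_le_mul_of_nonneg_left hup hC0
      have := hC ζ hζ hζc hζ0
      nlinarith

end Vale.Agent.P134R
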