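import Vale.Agent.P134R.Gain

/-!
# P134: rotationally symmetric monotone solutions in dimensions up to seven
-/

namespace Vale.Agent.P134R

open MeasureTheory Filter Topology Finset Vale.Agent.P134

variable {k m : ℕ}

theorem embL_coord {n : ℕ} (l : Fin (n + 1)) (y : Sp n) (i : Fin n) :
    embL l y (l.succAbove i) = y i := by
  simp [embL_apply, ev_apply]

theorem ratio_tendsto (C : ℝ) {k m d : ℕ} (hd : d + 2 = k + m) (hm : 1 ≤ m) :
    Tendsto (fun p : ℕ => C * ((2 : ℝ) ^ p) ^ k / ((2 : ℝ) ^ p) ^ (d + 2)) atTop (𝓝 0) := by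
  have h : Tendsto (fun p : ℕ => C * (((2 : ℝ)⁻¹) ^ m) ^ p) atTop (𝓝 0) := by
    simpa using (tendsto_pow_atTop_nhds_zero_of_lt_one (r := ((2 : ℝ)⁻¹) ^ m) (by positivity)
      (pow_lt_one₀ (by norm_num) (by norm_num) (by omega))).const_mul C
  refine h.congr fun p => ?_
  rw [hd, pow_add, ← pow_mul, ← pow_mul, ← pow_mul, inv_pow, mul_comm m p]
  field_simp

/-- Energy in boxes of a profile: the volume bound. -/
theorem profile_boxes {w : Sp (k + m) → ℝ} (hw : IsSol ac w) (hb : ∀ x, |w x| ≤ 1) {d : ℕ}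
    (hd : d + 2 = k + m) : ∃ C : ℝ, ∀ (p : ℕ) (T : ℝ), 1 ≤ T →
      ∫ x, (box (k := k) (m := m) (2 * (2 ^ p * T)) (2 * T)).indicator (g2 w) x
        ≤ C * ((2 : ℝ) ^ p) ^ k * T ^ (d + 2) := by
  obtain ⟨L, hL0, hg, -⟩ := reg_bounds hw hb
  refine ⟨k * L ^ 2 * (4 ^ k * 4 ^ m), fun p T hT => ?_⟩
  have hS : (0 : ℝ) ≤ 2 * (2 ^ p * T) := by positivity
  have h1 : ∀ x, g2 w x ≤ k * L ^ 2 := fun x => by
    have h : g2 w x ≤ ∑ _i : Fin k, L ^ 2 := Finset.sum_le_sum fun i _ =>
      sq_le_sq' (abs_le.1 (hg x _)).1 (abs_le.1 (hg x _)).2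
    simpa using h
  have hm : MeasurableSet (box (k := k) (m := m) (2 * (2 ^ p * T)) (2 * T)) :=
    (box_isClosed _ _).measurableSet
  have hi : Integrable ((box (k := k) (m := m) (2 * (2 ^ p * T)) (2 * T)).indicator
      fun _ => (1 : ℝ)) := (integrable_indicator_iff hm).2
    ((continuous_const : Continuous fun _ : Sp (k + m) => (1 : ℝ)).continuousOn.integrableOn_compact
      (box_isCompact _ _))
  refine (integral_mono (((g2_continuous hw.reg).continuousOn.integrableOn_compact
    (box_isCompact _ _)).integrable_indicator hm) (hi.const_mul (k * L ^ 2)) fun x => ?_).trans ?_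
  · by_cases hx : x ∈ box (k := k) (m := m) (2 * (2 ^ p * T)) (2 * T)
    · simp [Set.indicator_of_mem hx, h1 x]
    · simp [Set.indicator_of_notMem hx]
  rw [integral_const_mul]
  refine (mul_le_mul_of_nonneg_left (box_volume hS (by linarith)) (by positivity)).trans
    (le_of_eq ?_)
  rw [hd, pow_add]
  simp only [mul_pow, show (4 : ℝ) = 2 * 2 by norm_num]
  ring

/-- Energy in boxes of a monotone solution: the sliding bound. -/
theorem solution_boxes {u : Sp (k + (m + 1)) → ℝ} (hu : IsSol ac u) {C : ℝ} (hC0 : 0 ≤ C)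
    (hC : ∀ ζ : Sp (k + (m + 1)) → ℝ, ContDiff ℝ 1 ζ → HasCompactSupport ζ → (∀ x, 0 ≤ ζ x) →
      ∫ x, ζ x * eden u x ≤ C * ∫ x, ∑ q, |pd q ζ x|) :
    ∃ K : ℝ, ∀ (p : ℕ) (T : ℝ), 1 ≤ T →
      ∫ x, (box (k := k) (m := m + 1) (2 * (2 ^ p * T)) (2 * T)).indicator (g2 u) x
        ≤ K * ((2 : ℝ) ^ p) ^ k * T ^ (k + m) := by
  obtain ⟨B, hB0, hB⟩ := exists_th_bound
  refine ⟨2 * C * (((k + (m + 1) : ℕ) : ℝ) * (2 * B) * (8 ^ k * 8 ^ (m + 1))), fun p T hT => ?_⟩
  have hT0 : 0 < T := by linarith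
  set S : ℝ := 2 ^ p * T with hS
  have hTS : T ≤ S := le_mul_of_one_le_left hT0.le (one_le_pow₀ one_le_two)
  have hS0 : 0 < S := by linarith
  set ζ : Sp (k + (m + 1)) → ℝ := tst (sc (2 * S)) (sc (2 * T)) with hζ
  have hζd : ContDiff ℝ 1 ζ :=
    tst_contDiff (fun r _ => (sc_contDiff _).contDiffAt) fun r _ => (sc_contDiff _).contDiffAt
  have hζc : HasCompactSupport ζ := tst_compact (R := 16 * S ^ 2 + 16 * T ^ 2)
    (fun r hr => (sc_facts (by linarith) (by nlinarith)).2.2.2 (by nlinarith))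
    (fun r hr => (sc_facts (by linarith) (by nlinarith)).2.2.2 (by nlinarith))
  have hζ0 : ∀ x, 0 ≤ ζ x := fun x => mul_nonneg (sc_facts (by linarith) (rsq_nonneg x)).1
    (sc_facts (by linarith) (ssq_nonneg x)).1
  have hed : Continuous (eden u) :=
    ((gsq_contDiff hu.reg _).continuous.div_const 2).add
      (((continuous_const.sub (hu.reg.continuous.pow 2)).pow 2).div_const 4)
  have hm : MeasurableSet (box (k := k) (m := m + 1) (2 * S) (2 * T)) :=
    (box_isClosed _ _).measurableSet
  have hlow : ∫ x, (box (k := k) (m := m + 1) (2 * S) (2 * T)).indicator (g2 u) x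
      ≤ 2 * ∫ x, ζ x * eden u x := by
    rw [← integral_const_mul]
    refine integral_mono (((g2_continuous hu.reg).continuousOn.integrableOn_compact
      (box_isCompact _ _)).integrable_indicator hm)
      (((hζd.continuous.mul hed).integrable_of_hasCompactSupport hζc.mul_right).const_mul 2)
      fun x => ?_
    have he : g2 u x ≤ 2 * eden u x := (g2_le x).trans (eden_ge u x)
    by_cases hx : x ∈ box (k := k) (m := m + 1) (2 * S) (2 * T)
    · rw [Set.indicator_of_mem hx, show ζ x = 1 by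
        simp [hζ, tst, (sc_facts (show 0 < 2 * S by linarith) (rsq_nonneg x)).2.2.1 hx.1,
          (sc_facts (show 0 < 2 * T by linarith) (ssq_nonneg x)).2.2.1 hx.2], one_mul]
      exact he
    · rw [Set.indicator_of_notMem hx]
      exact mul_nonneg two_pos.le (mul_nonneg (hζ0 x) (by linarith [g2_nonneg (u := u) x]))
  set K0 : ℝ := ((k + (m + 1) : ℕ) : ℝ) * (2 * B / T) with hK0
  have hpt : ∀ x, ∑ q, |pd q ζ x|
      ≤ K0 * (box (k := k) (m := m + 1) (4 * S) (4 * T)).indicator (fun _ => (1 : ℝ)) x := by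
    intro x
    obtain ⟨tc, tn⟩ := pd_tst (k := k) (m := m + 1) (sc_hasDerivAt (2 * S) (rsq x))
      (sc_hasDerivAt (2 * T) (ssq x))
    obtain ⟨a0, a1, -, a3⟩ := sc_facts (show 0 < 2 * S by linarith) (rsq_nonneg x)
    obtain ⟨b0, b1, -, b3⟩ := sc_facts (show 0 < 2 * T by linarith) (ssq_nonneg x)
    obtain ⟨c1, c2⟩ := sc'_bound (show 0 < 2 * S by linarith) (rsq_nonneg x) hB
    obtain ⟨d1, d2⟩ := sc'_bound (show 0 < 2 * T by linarith) (ssq_nonneg x) hB
    by_cases hx : x ∈ box (k := k) (m := m + 1) (4 * S) (4 * T)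
    · rw [Set.indicator_of_mem hx, mul_one]
      refine (Finset.sum_le_sum (g := fun _ => 2 * B / T) fun q _ => ?_).trans
        (le_of_eq (by simp [hK0]))
      induction q using Fin.addCases with
      | left i =>
        have hxi : |x (Fin.castAdd (m + 1) i)| ≤ 4 * S :=
          abs_le_of_sq_le_sq ((Finset.single_le_sum (f := fun i => x (Fin.castAdd (m + 1) i) ^ 2)
            (fun i _ => sq_nonneg _) (Finset.mem_univ i)).trans hx.1) (by linarith)
        rw [tc, abs_mul, abs_mul, abs_mul, abs_two, abs_of_nonneg b0]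
        calc |sc' (2 * S) (rsq x)| * (2 * |x (Fin.castAdd (m + 1) i)|) * sc (2 * T) (ssq x)
            ≤ B / (2 * S) ^ 2 * (2 * (4 * S)) * 1 :=
              mul_le_mul (mul_le_mul c1 (mul_le_mul_of_nonneg_left hxi two_pos.le) (by positivity)
                (by positivity)) b1 b0 (by positivity)
          _ = 2 * B / S := by field_simp; ring
          _ ≤ 2 * B / T := div_le_div_of_nonneg_left (by positivity) hT0 hTS
      | right j =>
        have hxj : |x (Fin.natAdd k j)| ≤ 4 * T :=
          abs_le_of_sq_le_sq ((Finset.single_le_sum (f := fun j => x (Fin.natAdd k j) ^ 2)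
            (fun i _ => sq_nonneg _) (Finset.mem_univ j)).trans hx.2) (by linarith)
        rw [tn, abs_mul, abs_mul, abs_mul, abs_two, abs_of_nonneg a0]
        calc sc (2 * S) (rsq x) * (|sc' (2 * T) (ssq x)| * (2 * |x (Fin.natAdd k j)|))
            ≤ 1 * (B / (2 * T) ^ 2 * (2 * (4 * T))) :=
              mul_le_mul a1 (mul_le_mul d1 (mul_le_mul_of_nonneg_left hxj two_pos.le)
                (by positivity) (by positivity)) (by positivity) zero_le_one
          _ = 2 * B / T := by field_simp; ring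
    · rw [Set.indicator_of_notMem hx, mul_zero]
      have hout : 4 * (2 * S) ^ 2 < rsq x ∨ 4 * (2 * T) ^ 2 < ssq x := by
        rw [show x ∈ box (4 * S) (4 * T) ↔ rsq x ≤ (4 * S) ^ 2 ∧ ssq x ≤ (4 * T) ^ 2 from Iff.rfl,
          not_and_or, not_le, not_le] at hx
        rcases hx with h | h
        · exact Or.inl (lt_of_eq_of_lt (by ring) h)
        · exact Or.inr (lt_of_eq_of_lt (by ring) h)
      refine le_of_eq (Finset.sum_eq_zero fun q _ => abs_eq_zero.2 ?_)
      rcases hout with h | h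
      · have z1 : sc' (2 * S) (rsq x) = 0 := by
          by_contra hne
          linarith [(c2 hne).2]
        induction q using Fin.addCases with
        | left i => simp [hζ, tc, z1]
        | right j => simp [hζ, tn, a3 h.le]
      · have z1 : sc' (2 * T) (ssq x) = 0 := by
          by_contra hne
          linarith [(d2 hne).2]
        induction q using Fin.addCases with
        | left i => simp [hζ, tc, b3 h.le]
        | right j => simp [hζ, tn, z1]
  have hi : Integrable ((box (k := k) (m := m + 1) (4 * S) (4 * T)).indicator fun _ => (1 : ℝ)) :=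
    (integrable_indicator_iff (box_isClosed _ _).measurableSet).2
      ((continuous_const : Continuous fun _ : Sp (k + (m + 1)) => (1 : ℝ)
        ).continuousOn.integrableOn_compact (box_isCompact _ _))
  have hgrad : ∫ x, ∑ q, |pd q ζ x| ≤ K0 * ((2 * (4 * S)) ^ k * (2 * (4 * T)) ^ (m + 1)) := by
    refine (integral_mono_of_nonneg (Eventually.of_forall fun x =>
      Finset.sum_nonneg fun q _ => abs_nonneg _) (hi.const_mul K0)
      (Eventually.of_forall hpt)).trans ?_
    rw [integral_const_mul]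
    exact mul_le_mul_of_nonneg_left (box_volume (by linarith) (by linarith)) (by positivity)
  refine hlow.trans ((mul_le_mul_of_nonneg_left ((hC ζ hζd hζc hζ0).trans
    (mul_le_mul_of_nonneg_left hgrad hC0)) two_pos.le).trans (le_of_eq ?_))
  rw [hK0, hS]
  simp only [show (8 : ℝ) = 2 * 4 by norm_num, mul_pow, pow_succ T m, pow_add T k m]
  field_simp

/-- The main theorem, centred at the origin. -/
theorem rot_par {u : Sp (k + (m + 1)) → ℝ} (hm : 1 ≤ m) (hm2 : m ≤ 2) (hk : 2 ≤ k)
    (hkm : (k + m - 2) ^ 2 ≤ 4 * (k - 1)) (hu : IsSol ac u) (hb : ∀ x, |u x| ≤ 1)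
    (hpos : ∀ x, 0 < pd (Fin.natAdd k (Fin.last m)) u x)
    (hS : ∀ x (i j : Fin k), x (Fin.castAdd (m + 1) i) * pd (Fin.castAdd (m + 1) j) u x
      = x (Fin.castAdd (m + 1) j) * pd (Fin.castAdd (m + 1) i) u x) :
    Par u := by
  obtain ⟨d, hd⟩ : ∃ d, d + 2 = k + m := ⟨k + m - 2, by omega⟩
  have hda : ((d : ℝ) / 2) ^ 2 ≤ (k : ℝ) - 1 := by
    rw [show k + m - 2 = d by omega] at hkm
    have h : ((d ^ 2 : ℕ) : ℝ) ≤ ((4 * (k - 1) : ℕ) : ℝ) := by exact_mod_cast hkm
    push_cast [Nat.cast_sub (show 1 ≤ k by omega)] at h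
    linarith
  have hl : Fin.natAdd k (Fin.last m) = Fin.last (k + m) := Fin.ext (by simp)
  have hcast : ∀ i : Fin k, (Fin.natAdd k (Fin.last m)).succAbove (Fin.castAdd m i)
      = Fin.castAdd (m + 1) i := fun i => by
    refine Fin.ext ?_
    rw [Fin.succAbove_of_castSucc_lt]
    · rfl
    · show (i : ℕ) < k + m
      have := i.isLt
      omega
  have hprof : ∀ v, IsSol ac v → (∀ x, |v x| ≤ 1) → Stable v →
      (∀ x, pd (Fin.natAdd k (Fin.last m)) v x = 0) →
      (∀ x, Tendsto (fun N : ℕ => u (x + (N : ℝ) • ev (Fin.natAdd k (Fin.last m)))) atTop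
        (𝓝 (v x))) →
      (∀ x i, Tendsto (fun N : ℕ => pd i u (x + (N : ℝ) • ev (Fin.natAdd k (Fin.last m)))) atTop
        (𝓝 (pd i v x))) → Par v := by
    intro v hv hvb hvs hv0 _ hlim
    have hSv : ∀ x (i j : Fin k), x (Fin.castAdd (m + 1) i) * pd (Fin.castAdd (m + 1) j) v x
        = x (Fin.castAdd (m + 1) j) * pd (Fin.castAdd (m + 1) i) v x := by
      intro x i j
      refine tendsto_nhds_unique ((hlim x _).const_mul _) (((hlim x _).const_mul _).congr fun N => ?_)
      have h := hS (x + (N : ℝ) • ev (Fin.natAdd k (Fin.last m))) i j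
      simp only [PiLp.add_apply, PiLp.smul_apply, ev_apply, castAdd_ne_natAdd, if_false,
        smul_zero, add_zero] at h
      exact h.symm
    obtain ⟨hw, hws, hwp, -⟩ := descend (n := k + m) hv hvs (Fin.natAdd k (Fin.last m)) hv0
    obtain ⟨C, hC⟩ := profile_boxes hw (fun y => hvb _) hd
    have hz : ∀ (x : Sp (k + m)) (i : Fin k),
        pd (Fin.castAdd m i)
          (fun y => v (embL (n := k + m) (Fin.natAdd k (Fin.last m) : Fin (k + (m + 1))) y)) x = 0 := by
      refine trans_zero hk hda hw (fun y => hvb _) hws (fun x i j => ?_)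
        (fun p => C * ((2 : ℝ) ^ p) ^ k) (ratio_tendsto C hd hm) hC
      have h := hSv (embL (n := k + m) (Fin.natAdd k (Fin.last m) : Fin (k + (m + 1))) x) i j
      rw [← hcast, ← hcast, embL_coord, embL_coord] at h
      rw [hwp, hwp]
      exact h
    have hd' := hv.reg.differentiable two_ne_zero
    refine par_of_zero (k + (m + 1)) v hv hvb hvs
      (insert (Fin.natAdd k (Fin.last m)) (cs k (m + 1))) (fun q hq x => ?_) ?_
    · rcases Finset.mem_insert.1 hq with rfl | hq
      · exact hv0 x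
      · simp only [cs, Finset.mem_map, Finset.mem_univ, true_and, Fin.castAddEmb_apply] at hq
        obtain ⟨i, rfl⟩ := hq
        set l : Fin (k + m + 1) := (Fin.natAdd k (Fin.last m) : Fin (k + (m + 1)))
        have h1 := hz (tlL l x) i
        rw [hwp, hcast] at h1
        have h2 : pd l (pd (Fin.castAdd (m + 1) i) v) = fun _ => 0 := by
          funext y
          rw [pd_comm hv.reg]
          rw [show pd l v = fun _ => 0 from funext hv0, pd]
          erw [(hasFDerivAt_const (0 : ℝ) y).fderiv]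
          rfl
        rw [indep l ((pd_contDiff hv.reg _).differentiable one_ne_zero) (congrFun h2) x]
        exact h1
    · rw [Finset.card_insert_of_notMem]
      · simp [cs]; omega
      · simp only [cs, Finset.mem_map, Finset.mem_univ, true_and, Fin.castAddEmb_apply, not_exists]
        exact fun i => castAdd_ne_natAdd i _
  obtain ⟨C, hC0, hC⟩ := sliding hu hb _ hpos hprof
  obtain ⟨K, hK⟩ := solution_boxes hu hC0 hC
  rw [← hd] at hK
  have hz := trans_zero hk hda hu hb (stable_of_pos hu hpos) hS (fun p => K * ((2 : ℝ) ^ p) ^ k)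
    (ratio_tendsto K hd hm) hK
  refine par_of_zero_three _ u hu hb _ hpos (cs k (m + 1)) (fun q hq x => ?_) ?_
  · simp only [cs, Finset.mem_map, Finset.mem_univ, true_and, Fin.castAddEmb_apply] at hq
    obtain ⟨i, rfl⟩ := hq
    exact hz x i
  · simp [cs]; omega

/-- One-dimensionality in the rotation classes. -/
theorem rot_one_dim (hm : 1 ≤ m) (hm2 : m ≤ 2) (hk : 2 ≤ k)
    (hkm : (k + m - 2) ^ 2 ≤ 4 * (k - 1)) {u : Sp (k + (m + 1)) → ℝ} (hu : ContDiff ℝ 2 u)
    (heq : ∀ x, Laplacian.laplacian u x = ac (u x)) (hb : ∀ x, |u x| ≤ 1)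
    (hpos : ∀ x, 0 < pd (Fin.natAdd k (Fin.last m)) u x) (c : Fin k → ℝ)
    (hsym : ∀ x y : Sp (k + (m + 1)),
      ∑ i : Fin k, (x (Fin.castAdd (m + 1) i) - c i) ^ 2
        = ∑ i : Fin k, (y (Fin.castAdd (m + 1) i) - c i) ^ 2 →
      (∀ j, x (Fin.natAdd k j) = y (Fin.natAdd k j)) → u x = u y) :
    ∃ e : Sp (k + (m + 1)), ‖e‖ = 1 ∧ ∃ h : ℝ → ℝ, ∀ x, u x = h (inner ℝ e x) := by
  let C : Sp (k + (m + 1)) := ∑ i : Fin k, c i • ev (Fin.castAdd (m + 1) i)
  have hC : ∀ i : Fin k, C (Fin.castAdd (m + 1) i) = c i := fun i => by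
    simp [C, ev_apply, (Fin.castAdd_injective k (m + 1)).eq_iff]
  have hC' : ∀ j, C (Fin.natAdd k j) = 0 := fun j => by
    simp [C, ev_apply, (castAdd_ne_natAdd _ j).symm]
  obtain ⟨hsol, hvp⟩ := translate hu heq C
  have hS := symm_relation (k := k) (m := m + 1) (hsol.reg.differentiable two_ne_zero)
    (fun x y hr hz => by
      refine hsym _ _ ?_ fun j => ?_
      · simp only [PiLp.add_apply, hC, add_sub_cancel_right]
        exact hr
      · simp [PiLp.add_apply, hC', hz j])
  have hP := rot_par hm hm2 hk hkm hsol (fun y => hb _) (fun y => by rw [hvp]; exact hpos _) hS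
  set l : Fin (k + (m + 1)) := Fin.natAdd k (Fin.last m) with hl
  have hud := hu.differentiable two_ne_zero
  have hj : ∀ i, ContDiff ℝ 1 (pd i u) := pd_contDiff hu
  have hP' : ∀ x i j q, pd i u x * pd q (pd j u) x = pd j u x * pd q (pd i u) x := by
    intro x i j q
    have h := hP (x - C) i j q
    have e : ∀ i, pd i (fun y => u (y + C)) = fun y => pd i u (y + C) := fun i => pd_shift u C i
    simp only [e, pd_shift, sub_add_cancel] at h
    exact h
  have hconst : ∀ i x, pd i u x = pd i u 0 / pd l u 0 * pd l u x := by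
    intro i x
    have dg : Differentiable ℝ fun y => pd i u y * (pd l u y)⁻¹ := fun y =>
      ((hj i).differentiable one_ne_zero y).mul
        (((hj l).differentiable one_ne_zero y).inv (hpos y).ne')
    have hz : ∀ y, fderiv ℝ (fun y => pd i u y * (pd l u y)⁻¹) y = 0 := fun y =>
      ContinuousLinearMap.ext fun w => by
        rw [fderiv_eq_sum]
        refine Finset.sum_eq_zero fun q _ => mul_eq_zero_of_right _ ?_
        rw [pd_mul (g := pd i u) (h := fun y => (pd l u y)⁻¹) ((hj i).differentiable one_ne_zero)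
          (fun z => ((hj l).differentiable one_ne_zero z).inv (hpos z).ne'),
          pd_inv ((hj l).differentiable one_ne_zero) (fun z => (hpos z).ne')]
        have := (hpos y).ne'
        field_simp
        linarith [hP' y i l q]
    have h := is_const_of_fderiv_eq_zero dg hz x 0
    simp only [← div_eq_mul_inv] at h
    exact (div_eq_iff (hpos x).ne').1 h
  refine one_dim_of_gradient hud (E := ∑ i, (pd i u 0 / pd l u 0) • ev i) (φ := pd l u) ?_
    fun x j => ?_
  · intro h
    have := congrArg (fun z : Sp (k + (m + 1)) => z l) h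
    simp [ev_apply, (hpos 0).ne'] at this
  · rw [hconst j x, mul_comm]
    simp [ev_apply]

end Vale.Agent.P134R
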