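import Vale.Agent.P134.OneDim

/-!
# P134: a gradient bound by comparison, and uniform bounds for bounded Allen-Cahn solutions
-/

namespace Vale.Agent.P134R

open MeasureTheory Filter Topology Finset Vale.Agent.P134

variable {n : ℕ}

/-- The Allen-Cahn nonlinearity. -/
def ac (s : ℝ) : ℝ := s ^ 3 - s

theorem ev_apply (i q : Fin n) : ev i q = if q = i then 1 else 0 := by
  simp [ev]

theorem line_deriv {g : Sp n → ℝ} (hg : Differentiable ℝ g) (y : Sp n) (i : Fin n) (c t : ℝ) :
    HasDerivAt (fun s : ℝ => g (y + (c * s) • ev i)) (c * pd i g (y + (c * t) • ev i)) t := by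
  have h1 : HasDerivAt (fun s : ℝ => y + (c * s) • ev i) ((c * 1) • ev i) t :=
    (((hasDerivAt_id t).const_mul c).smul_const (ev i)).const_add y
  have h2 := (hg (y + (c * t) • ev i)).hasFDerivAt.comp_hasDerivAt t h1
  rw [mul_one, map_smul, smul_eq_mul] at h2
  exact h2

theorem pd_shift (g : Sp n → ℝ) (a : Sp n) (i : Fin n) :
    pd i (fun y => g (y + a)) = fun x => pd i g (x + a) := by
  funext x
  show fderiv ℝ (fun y => g (y + a)) x (ev i) = fderiv ℝ g (x + a) (ev i)
  rw [fderiv_comp_add_right]

theorem pd_sub {g h : Sp n → ℝ} (hg : Differentiable ℝ g) (hh : Differentiable ℝ h) (i : Fin n) :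
    pd i (fun y => g y - h y) = fun x => pd i g x - pd i h x := by
  funext x
  simp [pd, fderiv_fun_sub (hg x) (hh x)]

theorem pd_neg' (g : Sp n → ℝ) (i : Fin n) :
    pd i (fun y => - g y) = fun x => - pd i g x := by
  funext x
  simp [pd, fderiv_fun_neg]

theorem second_le_of_max {g g' : ℝ → ℝ} {g'' : ℝ} (h1 : ∀ t, HasDerivAt g (g' t) t)
    (h2 : HasDerivAt g' g'' 0) (hmax : IsLocalMax g 0) : g'' ≤ 0 := by
  by_contra hc
  push Not at hc
  have hd : deriv g = g' := funext fun t => (h1 t).deriv
  have hmin : IsLocalMin g 0 := isLocalMin_of_deriv_deriv_pos (by rw [hd, h2.deriv]; exact hc)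
    hmax.deriv_eq_zero (h1 0).continuousAt
  have hconst : g =ᶠ[𝓝 0] fun _ => g 0 := by
    filter_upwards [hmax, hmin] with t a b using le_antisymm a b
  have h0 : g' =ᶠ[𝓝 0] fun _ => 0 := by
    filter_upwards [hconst.eventuallyEq_nhds] with t ht
    rw [← hd, ht.deriv_eq, deriv_const]
  have := (h2.congr_of_eventuallyEq h0.symm).unique (hasDerivAt_const 0 0)
  linarith

theorem grad_upper {u : Sp n → ℝ} (hu : ContDiff ℝ 2 u) {A B : ℝ} (hA : ∀ x, |u x| ≤ A)
    (hB : ∀ x, |∑ i, pd i (pd i u) x| ≤ B) (x : Sp n) (j : Fin n) :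
    pd j u x ≤ n * A + B / 2 := by
  have hA0 : 0 ≤ A := (abs_nonneg _).trans (hA x)
  have hB0 : 0 ≤ B := (abs_nonneg _).trans (hB x)
  refine le_of_forall_pos_le_add fun ε hε => ?_
  set K := (n : ℝ) * A + (B + ε) / 2 with hK
  have hK0 : 0 ≤ K := by positivity
  suffices hmain : ∀ h : ℝ, 0 < h → h ≤ 1 →
      (u (x + h • ev j) - u (x + (-h) • ev j)) / 2 ≤ A * h ^ 2 + h * (1 - h) * K by
    have hud := hu.differentiable two_ne_zero
    have d : HasDerivAt (fun h : ℝ => (u (x + (1 * h) • ev j) - u (x + (-1 * h) • ev j)) / 2)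
        (pd j u x) 0 := by
      have := ((line_deriv hud x j 1 0).sub (line_deriv hud x j (-1) 0)).div_const 2
      simpa using this
    have t := d.tendsto_slope_zero_right
    simp only [zero_add, mul_zero, zero_smul, add_zero, sub_self, zero_div, sub_zero,
      smul_eq_mul] at t
    have t2 : Tendsto (fun h : ℝ => A * h + K) (𝓝[>] 0) (𝓝 K) :=
      (Continuous.tendsto' (by fun_prop) 0 K (by simp)).mono_left nhdsWithin_le_nhds
    have := le_of_tendsto_of_tendsto t t2 (by
      filter_upwards [Ioc_mem_nhdsGT one_pos] with h hh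
      have h1 := hmain h hh.1 hh.2
      simp only [one_mul, neg_one_mul]
      rw [inv_mul_le_iff₀ hh.1]
      nlinarith [mul_nonneg hK0 (sq_nonneg h)])
    rw [hK] at this
    linarith
  intro h hh0 hh1
  set Q : Set (Sp n) := {y | 0 ≤ y j ∧ ∀ i, |y i| ≤ 1} with hQ
  have hcoord : ∀ i, Continuous fun y : Sp n => y i := fun i =>
    (coord_contDiff (N := 1) i).continuous
  have hQc : IsCompact Q := by
    refine (isCompact_closedBall (0 : Sp n) (Real.sqrt n)).of_isClosed_subset ?_ fun y hy => ?_
    · rw [hQ, Set.ofPred_and, Set.ofPred_forall]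
      exact (isClosed_le continuous_const (hcoord j)).inter
        (isClosed_iInter fun i => isClosed_le (hcoord i).abs continuous_const)
    · rw [mem_closedBall_zero_iff]
      refine Real.le_sqrt_of_sq_le ?_
      rw [EuclideanSpace.norm_sq_eq]
      calc ∑ i, ‖y i‖ ^ 2 ≤ ∑ _i : Fin n, (1 : ℝ) :=
            Finset.sum_le_sum fun i _ => by
              rw [Real.norm_eq_abs]; exact pow_le_one₀ (abs_nonneg _) (hy.2 i)
        _ = n := by simp
  set σ : Sp n → Sp n := fun y => y - (2 * y j) • ev j with hσ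
  set D : Sp n → ℝ := fun y => (u (x + y) - u (x + σ y)) / 2
    - (A * (∑ i, y i ^ 2) + y j * (1 - y j) * K) with hD
  have hσc : Continuous σ := continuous_id.sub ((continuous_const.mul (hcoord j)).smul continuous_const)
  have hDc : Continuous D := by
    have huc := hu.continuous
    exact (((huc.comp (continuous_const.add continuous_id)).sub
      (huc.comp (continuous_const.add hσc))).div_const 2).sub
      ((continuous_const.mul (continuous_finsetSum _ fun i _ => (hcoord i).pow 2)).add
        (((hcoord j).mul (continuous_const.sub (hcoord j))).mul continuous_const))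
  have hne : Q.Nonempty := ⟨0, by simp [hQ]⟩
  obtain ⟨y, hyQ, hymax⟩ := hQc.exists_isMaxOn hne hDc.continuousOn
  have hh : h • ev j ∈ Q := by
    refine ⟨by simpa [ev_apply] using hh0.le, fun i => ?_⟩
    simp only [PiLp.smul_apply, ev_apply, smul_eq_mul]
    split_ifs <;> simp [abs_of_pos hh0, hh1]
  suffices hy0 : D y ≤ 0 by
    have h1 : D (h • ev j) ≤ 0 := (hymax hh).trans hy0
    have e1 : σ (h • ev j) = (-h) • ev j := by
      simp only [hσ, PiLp.smul_apply, ev_apply, if_true, smul_eq_mul, mul_one]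
      rw [← sub_smul]
      ring_nf
    have e2 : ∑ i, (h • ev j : Sp n) i ^ 2 = h ^ 2 := by
      simp [ev_apply, ite_pow]
    simp only [hD, e1, e2] at h1
    simp only [PiLp.smul_apply, ev_apply, if_true, smul_eq_mul, mul_one] at h1
    linarith
  by_contra hpos
  push Not at hpos
  have hnum : ∀ i, |y i| < 1 := by
    intro i
    by_contra hc
    push Not at hc
    have hs : 1 ≤ ∑ q, y q ^ 2 :=
      le_trans (by nlinarith [sq_abs (y i)]) (Finset.single_le_sum (f := fun q => y q ^ 2)
        (fun q _ => sq_nonneg _) (Finset.mem_univ i))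
    have hu1 := abs_le.1 (hA (x + y))
    have hu2 := abs_le.1 (hA (x + σ y))
    have hj : 0 ≤ y j * (1 - y j) * K :=
      mul_nonneg (mul_nonneg hyQ.1 (by linarith [(abs_le.1 (hyQ.2 j)).2])) hK0
    simp only [hD] at hpos
    nlinarith [mul_le_mul_of_nonneg_left hs hA0]
  have hjpos : 0 < y j := by
    refine lt_of_le_of_ne hyQ.1 fun h0 => ?_
    have e : σ y = y := by simp [hσ, ← h0]
    simp only [hD, e, ← h0, sub_self, zero_div, zero_mul, add_zero, zero_sub] at hpos
    nlinarith [mul_nonneg hA0 (Finset.sum_nonneg fun i (_ : i ∈ Finset.univ) => sq_nonneg (y i))]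
  have hmemQ : Q ∈ 𝓝 y := by
    have h1 : ∀ᶠ z in 𝓝 y, ∀ i, |z i| ≤ 1 := eventually_all.2 fun i =>
      ((hcoord i).abs.continuousAt.eventually_lt continuousAt_const (hnum i)).mono fun _ hz => hz.le
    have h2 : ∀ᶠ z in 𝓝 y, 0 ≤ z j :=
      (continuousAt_const.eventually_lt (hcoord j).continuousAt hjpos).mono fun _ hz => hz.le
    filter_upwards [h1, h2] with z a b using ⟨b, a⟩
  have hloc : IsLocalMax D y := hymax.isLocalMax hmemQ
  set sg : Fin n → ℝ := fun i => if i = j then -1 else 1 with hsg
  set δ : Fin n → ℝ := fun i => if i = j then 1 else 0 with hδ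
  have key : ∀ i, (pd i (pd i u) (x + y) - pd i (pd i u) (x + σ y)) / 2
      - (2 * A - 2 * δ i * K) ≤ 0 := by
    intro i
    have hud := hu.differentiable two_ne_zero
    have hpd := (pd_contDiff hu i).differentiable one_ne_zero
    have eD : (fun t : ℝ => D (y + t • ev i)) = fun t : ℝ =>
        (u ((x + y) + (1 * t) • ev i) - u ((x + σ y) + (sg i * t) • ev i)) / 2
          - (A * ((∑ q, y q ^ 2) + 2 * y i * t + t ^ 2)
            + (y j + δ i * t) * (1 - (y j + δ i * t)) * K) := by
      funext t
      have c : ∀ q, (y + t • ev i) q = y q + if q = i then t else 0 := fun q => by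
        simp [ev_apply]
      have cj : (y + t • ev i) j = y j + δ i * t := by
        rw [c]
        simp only [hδ]
        rcases eq_or_ne i j with rfl | hij
        · simp
        · simp [hij, hij.symm]
      have cs : ∑ q, (y + t • ev i) q ^ 2 = (∑ q, y q ^ 2) + 2 * y i * t + t ^ 2 := by
        rw [Finset.sum_congr rfl fun q _ => show (y + t • ev i) q ^ 2
          = y q ^ 2 + (if q = i then 2 * y i * t + t ^ 2 else 0) by
            rw [c]; split_ifs with hq
            · subst hq; ring
            · ring, Finset.sum_add_distrib, Finset.sum_ite_eq']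
        simp only [Finset.mem_univ, if_true]
        ring
      have cσ : σ (y + t • ev i) = σ y + (sg i * t) • ev i := by
        simp only [hσ, cj]
        simp only [hsg, hδ]
        split_ifs with hij
        · subst hij
          module
        · module
      simp only [hD, cj, cs, cσ, one_mul, add_assoc]
    have hmax0 : IsLocalMax (fun t : ℝ => D (y + t • ev i)) 0 := by
      refine IsLocalMax.comp_continuous (f := D) (g := fun t : ℝ => y + t • ev i) ?_ ?_
      · simpa using hloc
      · exact (by fun_prop : Continuous fun t : ℝ => y + t • ev i).continuousAt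
    rw [eD] at hmax0
    have d1 : ∀ t, HasDerivAt (fun t : ℝ =>
        (u ((x + y) + (1 * t) • ev i) - u ((x + σ y) + (sg i * t) • ev i)) / 2
          - (A * ((∑ q, y q ^ 2) + 2 * y i * t + t ^ 2)
            + (y j + δ i * t) * (1 - (y j + δ i * t)) * K))
        ((1 * pd i u ((x + y) + (1 * t) • ev i)
            - sg i * pd i u ((x + σ y) + (sg i * t) • ev i)) / 2
          - (A * (2 * y i + 2 * t) + δ i * (1 - 2 * (y j + δ i * t)) * K)) t := by
      intro t
      have p1 : HasDerivAt (fun t : ℝ => A * ((∑ q, y q ^ 2) + 2 * y i * t + t ^ 2)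
            + (y j + δ i * t) * (1 - (y j + δ i * t)) * K)
          (A * (2 * y i + 2 * t) + δ i * (1 - 2 * (y j + δ i * t)) * K) t := by
        have a1 := ((((hasDerivAt_id' t).const_mul (2 * y i)).const_add (∑ q, y q ^ 2)).add
          (hasDerivAt_pow 2 t)).const_mul A
        have a2 := ((hasDerivAt_id' t).const_mul (δ i)).const_add (y j)
        exact (a1.add ((a2.mul (a2.const_sub 1)).mul_const K)).congr_deriv (by push_cast; ring)
      exact (((line_deriv hud _ i 1 t).sub (line_deriv hud _ i (sg i) t)).div_const 2).sub p1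
    have d2 : HasDerivAt (fun t : ℝ => (1 * pd i u ((x + y) + (1 * t) • ev i)
            - sg i * pd i u ((x + σ y) + (sg i * t) • ev i)) / 2
          - (A * (2 * y i + 2 * t) + δ i * (1 - 2 * (y j + δ i * t)) * K))
        ((1 * (1 * pd i (pd i u) ((x + y) + (1 * (0 : ℝ)) • ev i))
            - sg i * (sg i * pd i (pd i u) ((x + σ y) + (sg i * 0) • ev i))) / 2
          - (A * 2 + δ i * (-(2 * δ i)) * K)) 0 := by
      have a1 := (((hasDerivAt_id' (0 : ℝ)).const_mul 2).const_add (2 * y i)).const_mul A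
      have a2 := (((((hasDerivAt_id' (0 : ℝ)).const_mul (δ i)).const_add (y j)).const_mul
        2).const_sub 1).const_mul (δ i) |>.mul_const K
      refine ((((line_deriv hpd _ i 1 0).const_mul 1).sub
        ((line_deriv hpd _ i (sg i) 0).const_mul (sg i))).div_const 2).sub ?_
      exact (a1.add a2).congr_deriv (by ring)
    have h2 := second_le_of_max d1 d2 hmax0
    simp only [mul_zero, zero_smul, add_zero, one_mul] at h2
    have s2 : sg i * sg i = 1 := by simp only [hsg]; split_ifs <;> norm_num
    have δ2 : δ i * δ i = δ i := by simp only [hδ]; split_ifs <;> norm_num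
    rw [← mul_assoc, s2, one_mul] at h2
    nlinarith [h2]
  have hsum := Finset.sum_le_sum fun i (_ : i ∈ (Finset.univ : Finset (Fin n))) => key i
  rw [Finset.sum_sub_distrib, ← Finset.sum_div, Finset.sum_sub_distrib, Finset.sum_sub_distrib,
    ← Finset.sum_mul, ← Finset.sum_mul, ← Finset.mul_sum, Finset.sum_const_zero] at hsum
  have eδ : ∑ i, δ i = 1 := by simp [hδ]
  simp only [eδ, Finset.sum_const, Finset.card_univ, Fintype.card_fin, nsmul_eq_mul] at hsum
  have b1 := abs_le.1 (hB (x + y))
  have b2 := abs_le.1 (hB (x + σ y))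
  rw [hK] at hsum
  linarith

theorem grad_bound {u : Sp n → ℝ} (hu : ContDiff ℝ 2 u) {A B : ℝ} (hA : ∀ x, |u x| ≤ A)
    (hB : ∀ x, |∑ i, pd i (pd i u) x| ≤ B) (x : Sp n) (j : Fin n) :
    |pd j u x| ≤ n * A + B / 2 := by
  refine abs_le.2 ⟨?_, grad_upper hu hA hB x j⟩
  have h := grad_upper (u := fun y => - u y) hu.neg (fun y => by simpa using hA y) (B := B)
    (fun y => by
      simp only [pd_neg', Finset.sum_neg_distrib, abs_neg]
      exact hB y) x j
  rw [pd_neg'] at h
  linarith

theorem lip_of_pd {g : Sp n → ℝ} (hg : Differentiable ℝ g) {L : ℝ}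
    (h : ∀ x i, |pd i g x| ≤ L) (x y : Sp n) : |g y - g x| ≤ n * L * ‖y - x‖ := by
  have hn : ∀ z, ‖fderiv ℝ g z‖ ≤ n * L := fun z => by
    have hL : 0 ≤ (n : ℝ) * L := by
      rcases Nat.eq_zero_or_pos n with h0 | h0
      · simp [h0]
      · exact mul_nonneg (Nat.cast_nonneg _) ((abs_nonneg _).trans (h z ⟨0, h0⟩))
    refine ContinuousLinearMap.opNorm_le_bound _ hL fun w => ?_
    rw [fderiv_eq_sum, Real.norm_eq_abs]
    refine (Finset.abs_sum_le_sum_abs _ _).trans ?_
    calc ∑ q, |w q * pd q g z| ≤ ∑ _q : Fin n, ‖w‖ * L := by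
          refine Finset.sum_le_sum fun q _ => ?_
          rw [abs_mul]
          exact mul_le_mul (PiLp.norm_apply_le w q) (h z q) (abs_nonneg _) (norm_nonneg _)
      _ = n * L * ‖w‖ := by simp; ring
  simpa [Real.norm_eq_abs] using convex_univ.norm_image_sub_le_of_norm_fderiv_le
    (fun z _ => hg z) (fun z _ => hn z) (Set.mem_univ x) (Set.mem_univ y)

theorem pd_le_of_lip {g : Sp n → ℝ} {C : ℝ} (hC : 0 ≤ C) {x : Sp n}
    (h : ∀ y, |g y - g x| ≤ C * ‖y - x‖) (i : Fin n) : |pd i g x| ≤ C := by
  have h1 := norm_fderiv_le_of_lip' ℝ hC (f := g) (x₀ := x)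
    (Eventually.of_forall fun y => by simpa [Real.norm_eq_abs] using h y)
  calc |pd i g x| = ‖fderiv ℝ g x (ev i)‖ := rfl
    _ ≤ ‖fderiv ℝ g x‖ * ‖ev i‖ := ContinuousLinearMap.le_opNorm _ _
    _ ≤ C := by simpa [ev] using h1

theorem ac_bound {s : ℝ} (hs : |s| ≤ 1) : |ac s| ≤ 1 := by
  obtain ⟨a, b⟩ := abs_le.1 hs
  rw [ac, abs_le]
  constructor <;> nlinarith [mul_nonneg (sub_nonneg.2 b) (neg_le_iff_add_nonneg.1 a), sq_nonneg s, sq_nonneg (s - 1), sq_nonneg (s + 1)]

theorem sol_shift {f : ℝ → ℝ} {u : Sp n → ℝ} (hu : IsSol f u) (a : Sp n) :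
    IsSol f (fun y => u (y + a)) := by
  refine ⟨hu.reg.comp (contDiff_id.add contDiff_const), fun x => ?_⟩
  simp only [pd_shift]
  exact hu.eqn (x + a)

/-- `C^{2,1}` bounds, uniform over all bounded solutions in a given dimension. -/
theorem reg_bounds_unif (n : ℕ) :
    ∃ L : ℝ, 0 ≤ L ∧ ∀ u : Sp n → ℝ, IsSol ac u → (∀ x, |u x| ≤ 1) → (∀ x i, |pd i u x| ≤ L) ∧
      (∀ x h i, |pd i u (x + h) - pd i u x| ≤ L * ‖h‖) ∧
      (∀ x h i j, |pd i (pd j u) (x + h) - pd i (pd j u) x| ≤ L * ‖h‖) ∧
      (∀ x i j, |pd i (pd j u) x| ≤ L) := by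
  set L0 : ℝ := n + 1 with hL0
  set M : ℝ := n * L0 with hM
  have hM0 : 0 ≤ M := by positivity
  set M1 : ℝ := n * M + M with hM1
  set M2 : ℝ := n * M1 with hM2
  set B2 : ℝ := 2 * M2 + 6 * (M * M) with hB2
  set M3 : ℝ := n * M2 + B2 / 2 with hM3
  refine ⟨L0 + M1 + M3, by positivity, fun u hu hb => ?_⟩
  have hg : ∀ x i, |pd i u x| ≤ L0 := fun x i => by
    have := grad_bound hu.reg hb (B := 1) (fun y => by rw [hu.eqn]; exact ac_bound (hb y)) x i
    rw [hL0]
    linarith
  have hud := hu.reg.differentiable two_ne_zero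
  have hlip : ∀ x h, |u (x + h) - u x| ≤ M * ‖h‖ := fun x h => by
    simpa [hM] using lip_of_pd hud hg x (x + h)
  have hP : ∀ p q : ℝ, |p| ≤ 1 → |q| ≤ 1 → |p ^ 2 + p * q + q ^ 2 - 1| ≤ 2 := fun p q hp hq => by
    obtain ⟨a, b⟩ := abs_le.1 hp
    obtain ⟨c, d⟩ := abs_le.1 hq
    rw [abs_le]
    constructor <;> nlinarith
  have h1 : ∀ x h i, |pd i u (x + h) - pd i u x| ≤ M1 * ‖h‖ := by
    intro x h i
    have hw := grad_bound (u := fun y => u (y + h) - u y)
      ((sol_shift hu h).reg.sub hu.reg) (A := M * ‖h‖) (B := 2 * (M * ‖h‖)) (fun y => hlip y h)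
      (fun y => by
        have e : ∑ q, pd q (pd q (fun y => u (y + h) - u y)) y = ac (u (y + h)) - ac (u y) := by
          rw [← hu.eqn, ← hu.eqn y, ← Finset.sum_sub_distrib]
          refine Finset.sum_congr rfl fun q _ => ?_
          rw [pd_sub ((sol_shift hu h).reg.differentiable two_ne_zero) hud, pd_shift,
            pd_sub (g := fun y => pd q u (y + h)) (((pd_contDiff hu.reg q).comp
              (contDiff_id.add contDiff_const)).differentiable one_ne_zero)
              ((pd_contDiff hu.reg q).differentiable one_ne_zero), pd_shift]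
        rw [e, show ac (u (y + h)) - ac (u y) = (u (y + h) - u y)
          * (u (y + h) ^ 2 + u (y + h) * u y + u y ^ 2 - 1) by simp only [ac]; ring, abs_mul]
        exact (mul_le_mul (hlip y h) (hP _ _ (hb _) (hb _)) (abs_nonneg _)
          (by positivity)).trans (by linarith)) x i
    rw [pd_sub ((sol_shift hu h).reg.differentiable two_ne_zero) hud, pd_shift] at hw
    refine hw.trans (le_of_eq ?_)
    rw [hM1]
    ring
  have h2 : ∀ x i j, |pd i (pd j u) x| ≤ M1 := fun x i j =>
    pd_le_of_lip (by positivity) (fun y => by simpa using h1 x (y - x) j) i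
  have hsd : ∀ y a b, |u (y + a + b) - u (y + a) - (u (y + b) - u y)| ≤ M2 * (‖a‖ * ‖b‖) := by
    intro y a b
    have hd := lip_of_pd (g := fun z => u (z + b) - u z)
      (((sol_shift hu b).reg.sub hu.reg).differentiable two_ne_zero) (L := M1 * ‖b‖)
      (fun z i => by
        rw [pd_sub ((sol_shift hu b).reg.differentiable two_ne_zero) hud, pd_shift]
        exact h1 z b i) y (y + a)
    simp only [add_sub_cancel_left] at hd
    calc |u (y + a + b) - u (y + a) - (u (y + b) - u y)|
        ≤ n * (M1 * ‖b‖) * ‖a‖ := hd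
      _ = M2 * (‖a‖ * ‖b‖) := by rw [hM2]; ring
  have h3 : ∀ x a b i, |pd i u (x + a + b) - pd i u (x + a) - (pd i u (x + b) - pd i u x)|
      ≤ M3 * (‖a‖ * ‖b‖) := by
    intro x a b i
    have d1 := ((sol_shift hu a).reg.differentiable two_ne_zero)
    have r0 : ContDiff ℝ 2 fun y => u (y + a + b) := by
      simpa only [add_assoc] using (sol_shift hu (a + b)).reg
    have hfun : ∀ q, pd q (fun y => u (y + a + b) - u (y + a) - (u (y + b) - u y))
        = fun y => pd q u (y + a + b) - pd q u (y + a) - (pd q u (y + b) - pd q u y) := fun q => by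
      have r1 : Differentiable ℝ fun y => u (y + a + b) - u (y + a) :=
        (r0.differentiable two_ne_zero).sub d1
      have r2 : Differentiable ℝ fun y => u (y + b) - u y :=
        ((sol_shift hu b).reg.differentiable two_ne_zero).sub hud
      rw [pd_sub r1 r2, pd_sub (r0.differentiable two_ne_zero) d1,
        pd_sub ((sol_shift hu b).reg.differentiable two_ne_zero) hud]
      simp only [add_assoc, pd_shift]
    have hw := grad_bound (u := fun y => u (y + a + b) - u (y + a) - (u (y + b) - u y))
      ((r0.sub (sol_shift hu a).reg).sub ((sol_shift hu b).reg.sub hu.reg))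
      (A := M2 * (‖a‖ * ‖b‖)) (B := B2 * (‖a‖ * ‖b‖)) (fun y => hsd y a b)
      (fun y => by
        have e : ∑ q, pd q (pd q (fun y => u (y + a + b) - u (y + a) - (u (y + b) - u y))) y
            = ac (u (y + a + b)) - ac (u (y + a)) - (ac (u (y + b)) - ac (u y)) := by
          simp only [← hu.eqn, ← Finset.sum_sub_distrib]
          refine Finset.sum_congr rfl fun q _ => ?_
          have hq := pd_contDiff hu.reg q
          have c : ∀ c : Sp n, Differentiable ℝ fun y => pd q u (y + c) := fun c =>
            (hq.comp (contDiff_id.add contDiff_const)).differentiable one_ne_zero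
          have c0 : Differentiable ℝ fun y => pd q u (y + a + b) := by
            simpa only [add_assoc] using c (a + b)
          have r1 : Differentiable ℝ fun y => pd q u (y + a + b) - pd q u (y + a) := c0.sub (c a)
          have r2 : Differentiable ℝ fun y => pd q u (y + b) - pd q u y :=
            (c b).sub (hq.differentiable one_ne_zero)
          rw [hfun, pd_sub r1 r2, pd_sub c0 (c a), pd_sub (c b) (hq.differentiable one_ne_zero)]
          simp only [add_assoc, pd_shift]
        rw [e]
        set p := u (y + a + b)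
        set q := u (y + a)
        set r := u (y + b)
        set s := u y
        have k0 : |p - q - (r - s)| ≤ M2 * (‖a‖ * ‖b‖) := hsd y a b
        have k1 : |r - s| ≤ M * ‖b‖ := hlip y b
        have k2 : |p - r| ≤ M * ‖a‖ := by
          simpa [p, r, add_right_comm y a b] using hlip (y + b) a
        have k3 : |q - s| ≤ M * ‖a‖ := hlip y a
        have hpq := hP p q (hb _) (hb _)
        rw [show ac p - ac q - (ac r - ac s) = (p - q - (r - s)) * (p ^ 2 + p * q + q ^ 2 - 1)
          + (r - s) * ((p - r) * (p + r + q) + (q - s) * (r + q + s)) by simp only [ac]; ring]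
        refine (abs_add_le _ _).trans ?_
        rw [abs_mul, abs_mul]
        have t1 : |p + r + q| ≤ 3 := (abs_add_three _ _ _).trans
          (by linarith [hb (y + a + b), hb (y + b), hb (y + a)])
        have t2 : |r + q + s| ≤ 3 := (abs_add_three _ _ _).trans
          (by linarith [hb y, hb (y + b), hb (y + a)])
        have k4 : |(p - r) * (p + r + q) + (q - s) * (r + q + s)| ≤ 6 * (M * ‖a‖) := by
          refine (abs_add_le _ _).trans ?_
          rw [abs_mul, abs_mul]
          nlinarith [mul_le_mul k2 t1 (abs_nonneg _) (by positivity),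
            mul_le_mul k3 t2 (abs_nonneg _) (by positivity)]
        calc |p - q - (r - s)| * |p ^ 2 + p * q + q ^ 2 - 1|
              + |r - s| * |(p - r) * (p + r + q) + (q - s) * (r + q + s)|
            ≤ M2 * (‖a‖ * ‖b‖) * 2 + M * ‖b‖ * (6 * (M * ‖a‖)) :=
              add_le_add (mul_le_mul k0 hpq (abs_nonneg _) (by positivity))
                (mul_le_mul k1 k4 (abs_nonneg _) (by positivity))
          _ = B2 * (‖a‖ * ‖b‖) := by rw [hB2]; ring) x i
    rw [hfun] at hw
    refine hw.trans (le_of_eq ?_)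
    rw [hM3]
    ring
  have h4 : ∀ x h i j, |pd i (pd j u) (x + h) - pd i (pd j u) x| ≤ M3 * ‖h‖ := by
    intro x h i j
    have hj := pd_contDiff hu.reg j
    have := pd_le_of_lip (g := fun y => pd j u (y + h) - pd j u y) (x := x)
      (C := M3 * ‖h‖) (by positivity) (fun y => by
        have := h3 x (y - x) h j
        simp only [add_sub_cancel] at this
        calc |pd j u (y + h) - pd j u y - (pd j u (x + h) - pd j u x)|
            ≤ M3 * (‖y - x‖ * ‖h‖) := this
          _ = M3 * ‖h‖ * ‖y - x‖ := by ring) i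
    rwa [pd_sub (g := fun y => pd j u (y + h))
      ((hj.comp (contDiff_id.add contDiff_const)).differentiable one_ne_zero)
      (hj.differentiable one_ne_zero), pd_shift] at this
  refine ⟨fun x i => (hg x i).trans ?_, fun x h i => (h1 x h i).trans ?_,
    fun x h i j => (h4 x h i j).trans ?_, fun x i j => (h2 x i j).trans ?_⟩
  · linarith [show (0 : ℝ) ≤ M1 + M3 by positivity]
  · exact mul_le_mul_of_nonneg_right (by linarith [show (0 : ℝ) ≤ L0 + M3 by positivity])
      (norm_nonneg _)
  · exact mul_le_mul_of_nonneg_right (by linarith [show (0 : ℝ) ≤ L0 + M1 by positivity])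
      (norm_nonneg _)
  · linarith [show (0 : ℝ) ≤ L0 + M3 by positivity]

/-- Uniform `C^{2,1}` bounds for bounded solutions. -/
theorem reg_bounds {u : Sp n → ℝ} (hu : IsSol ac u) (hb : ∀ x, |u x| ≤ 1) :
    ∃ L : ℝ, 0 ≤ L ∧ (∀ x i, |pd i u x| ≤ L) ∧
      (∀ x h i, |pd i u (x + h) - pd i u x| ≤ L * ‖h‖) ∧
      (∀ x h i j, |pd i (pd j u) (x + h) - pd i (pd j u) x| ≤ L * ‖h‖) ∧
      (∀ x i j, |pd i (pd j u) x| ≤ L) := by
  obtain ⟨L, hL0, h⟩ := reg_bounds_unif n
  exact ⟨L, hL0, h u hu hb⟩

end Vale.Agent.P134R
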