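import Vale.Agent.P134R.Profile

/-!
# P134: the stability inequality for `|∇_σ u|`, and parallel gradients under quadratic energy growth
-/

namespace Vale.Agent.P134R

open MeasureTheory Filter Topology Finset Vale.Agent.P134

variable {n : ℕ}

/-- `∑_{i ∈ σ} (∂_i u)²`. -/
noncomputable def gsq (σ : Finset (Fin n)) (u : Sp n → ℝ) (x : Sp n) : ℝ :=
  ∑ i ∈ σ, pd i u x ^ 2

/-- Half the derivative of `gsq`. -/
noncomputable def sv (σ : Finset (Fin n)) (u : Sp n → ℝ) (q : Fin n) (x : Sp n) : ℝ :=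
  ∑ i ∈ σ, pd i u x * pd q (pd i u) x

/-- The gradient has a locally constant direction. -/
def Par (u : Sp n → ℝ) : Prop :=
  ∀ x i j q, pd i u x * pd q (pd j u) x = pd j u x * pd q (pd i u) x

/-- `|x|²`. -/
noncomputable def nsq (x : Sp n) : ℝ := ∑ i, x i ^ 2

theorem nsq_eq (x : Sp n) : nsq x = ‖x‖ ^ 2 := by
  simp [nsq, EuclideanSpace.norm_sq_eq, sq_abs]

theorem nsq_nonneg (x : Sp n) : 0 ≤ nsq x := Finset.sum_nonneg fun _ _ => sq_nonneg _

theorem nsq_contDiff : ContDiff ℝ 1 (nsq (n := n)) :=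
  ContDiff.sum fun i _ => (coord_contDiff i).pow 2

theorem pd_nsq (j : Fin n) (x : Sp n) : pd j nsq x = 2 * x j := by
  show pd j (fun y : Sp n => ∑ i, y (id i) ^ 2) x = _
  simp [pd_sum_sq]

theorem gsq_nonneg (σ : Finset (Fin n)) (u : Sp n → ℝ) (x : Sp n) : 0 ≤ gsq σ u x :=
  Finset.sum_nonneg fun _ _ => sq_nonneg _

theorem gsq_contDiff {u : Sp n → ℝ} (hu : ContDiff ℝ 2 u) (σ : Finset (Fin n)) :
    ContDiff ℝ 1 (gsq σ u) :=
  ContDiff.sum fun i _ => (pd_contDiff hu i).pow 2

theorem pd_gsq {u : Sp n → ℝ} (hu : ContDiff ℝ 2 u) (σ : Finset (Fin n)) (q : Fin n) (x : Sp n) :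
    pd q (gsq σ u) x = 2 * sv σ u q x := by
  have h := HasFDerivAt.fun_sum (u := σ) fun i _ =>
    (((pd_contDiff hu i).differentiable one_ne_zero) x).hasFDerivAt.pow 2
  show fderiv ℝ (fun y => ∑ i ∈ σ, pd i u y ^ 2) x (ev q) = _
  rw [h.fderiv]
  simp only [FunLike.coe_sum, Finset.sum_apply, _root_.smul_apply, smul_eq_mul,
    sv, Finset.mul_sum]
  refine Finset.sum_congr rfl fun i _ => ?_
  show _ = 2 * (pd i u x * fderiv ℝ (pd i u) x (ev q))
  simp
  ring

theorem stab_SZ {u : Sp n → ℝ} (hu : IsSol ac u) (hb : ∀ x, |u x| ≤ 1) (hs : Stable u)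
    (σ : Finset (Fin n)) {η : Sp n → ℝ} (hη : ContDiff ℝ 1 η) (hc : HasCompactSupport η)
    {Z : Sp n → ℝ} (hZc : Continuous Z)
    (hZ : ∀ δ : ℝ, 0 < δ → δ ≤ 1 → ∀ x, Z x ≤ (∑ i ∈ σ, ∑ q, pd q (pd i u) x ^ 2)
      - (∑ q, sv σ u q x ^ 2) / (gsq σ u x + δ)) :
    ∫ x, η x ^ 2 * Z x ≤ ∫ x, gsq σ u x * ∑ q, pd q η x ^ 2 := by
  have hj : ∀ i, ContDiff ℝ 1 (pd i u) := pd_contDiff hu.reg
  have hu' : Continuous u := hu.reg.continuous
  have hgc : Continuous (gsq σ u) := (gsq_contDiff hu.reg σ).continuous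
  have hec : Continuous fun x => ∑ q, pd q η x ^ 2 :=
    continuous_finsetSum _ fun q _ => (pd_cont hη q).pow 2
  have iL : Integrable fun x => η x ^ 2 * Z x :=
    ((hη.continuous.pow 2).mul hZc).integrable_of_hasCompactSupport
      (HasCompactSupport.intro hc fun x hx => by simp [(hcs_zero hx).1])
  have iR : Integrable fun x => gsq σ u x * ∑ q, pd q η x ^ 2 :=
    (hgc.mul hec).integrable_of_hasCompactSupport
      (HasCompactSupport.intro hc fun x hx => by simp [(hcs_zero hx).2])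
  have iE : Integrable fun x => (∑ q, pd q η x ^ 2) + 2 * η x ^ 2 :=
    (hec.add ((hη.continuous.pow 2).const_mul 2)).integrable_of_hasCompactSupport
      (HasCompactSupport.intro hc fun x hx => by simp [(hcs_zero hx).1, (hcs_zero hx).2])
  suffices hmain : ∀ δ : ℝ, 0 < δ → δ ≤ 1 →
      ∫ x, η x ^ 2 * Z x ≤ (∫ x, gsq σ u x * ∑ q, pd q η x ^ 2)
        + δ * ∫ x, ((∑ q, pd q η x ^ 2) + 2 * η x ^ 2) by
    have t : Tendsto (fun δ : ℝ => (∫ x, gsq σ u x * ∑ q, pd q η x ^ 2)
        + δ * ∫ x, ((∑ q, pd q η x ^ 2) + 2 * η x ^ 2)) (𝓝[>] 0)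
        (𝓝 (∫ x, gsq σ u x * ∑ q, pd q η x ^ 2)) :=
      (Continuous.tendsto' (by fun_prop) 0 _ (by simp)).mono_left nhdsWithin_le_nhds
    refine ge_of_tendsto t ?_
    filter_upwards [Ioc_mem_nhdsGT one_pos] with δ hδ using hmain δ hδ.1 hδ.2
  intro δ hδ0 hδ1
  have hWpos : ∀ x, 0 < gsq σ u x + δ := fun x => by linarith [gsq_nonneg σ u x]
  set s : Sp n → ℝ := fun y => Real.sqrt (gsq σ u y + δ) with hs'
  have hg1 : ContDiff ℝ 1 fun y => gsq σ u y + δ := (gsq_contDiff hu.reg σ).add contDiff_const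
  have hsd : ContDiff ℝ 1 s := hg1.sqrt fun y => (hWpos y).ne'
  have hφ : ContDiff ℝ 1 fun y => s y * η y := hsd.mul hη
  have hφc : HasCompactSupport fun y => s y * η y := hc.mul_left
  have hpds : ∀ q x, pd q s x = sv σ u q x / s x := by
    intro q x
    have h1 := pd_comp (G := fun t => Real.sqrt t) (q := fun y => gsq σ u y + δ)
      (Real.hasDerivAt_sqrt (hWpos x).ne') (hg1.differentiable one_ne_zero x) q
    have e : pd q (fun y => gsq σ u y + δ) x = pd q (gsq σ u) x := by
      simp [pd]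
    rw [h1.trans (by rw [e, pd_gsq hu.reg]), hs']
    field_simp
  have hψ : ∀ i, ContDiff ℝ 1 fun y => η y * η y * pd i u y := fun i => (hη.mul hη).mul (hj i)
  have hψc : ∀ i, HasCompactSupport fun y => η y * η y * pd i u y := fun i => hc.mul_left.mul_right
  have il : ∀ i, Integrable fun x => (∑ q, pd q (pd i u) x * pd q (fun y => η y * η y * pd i u y) x)
      + (3 * u x ^ 2 - 1) * pd i u x * (η x * η x * pd i u x) := fun i =>
    ((continuous_finsetSum _ fun q _ => (pd_cont (hj i) q).mul (pd_cont (hψ i) q)).add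
      (((((hu'.pow 2).const_mul 3).sub continuous_const).mul (hj i).continuous).mul
        (hψ i).continuous)).integrable_of_hasCompactSupport
      (HasCompactSupport.intro (hψc i) fun x hx => by
        have e := (hcs_zero hx).1
        simp [(hcs_zero hx).2, e])
  have hlin : ∫ x, ∑ i ∈ σ, ((∑ q, pd q (pd i u) x * pd q (fun y => η y * η y * pd i u y) x)
      + (3 * u x ^ 2 - 1) * pd i u x * (η x * η x * pd i u x)) = 0 := by
    rw [integral_finsetSum _ fun i _ => il i]
    refine Finset.sum_eq_zero fun i _ => ?_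
    have h := linearized ac_contDiff hu (hψ i) (hψc i) i
    simpa only [deriv_ac] using h
  have iφ : Integrable fun x => (∑ q, pd q (fun y => s y * η y) x ^ 2)
      + (3 * u x ^ 2 - 1) * (s x * η x) ^ 2 :=
    ((continuous_finsetSum _ fun q _ => (pd_cont hφ q).pow 2).add
      ((((hu'.pow 2).const_mul 3).sub continuous_const).mul (hφ.continuous.pow 2))
      ).integrable_of_hasCompactSupport
      (HasCompactSupport.intro hφc fun x hx => by
        have e := (hcs_zero hx).1
        simp [(hcs_zero hx).2, e])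
  have iS := integrable_finsetSum σ fun i _ => il i
  have h0 := hs _ hφ hφc
  have hpt : ∀ x, η x ^ 2 * Z x + ((∑ q, pd q (fun y => s y * η y) x ^ 2)
      + (3 * u x ^ 2 - 1) * (s x * η x) ^ 2)
      - (∑ i ∈ σ, ((∑ q, pd q (pd i u) x * pd q (fun y => η y * η y * pd i u y) x)
      + (3 * u x ^ 2 - 1) * pd i u x * (η x * η x * pd i u x)))
      ≤ gsq σ u x * (∑ q, pd q η x ^ 2) + δ * ((∑ q, pd q η x ^ 2) + 2 * η x ^ 2) := by
    intro x
    have dη := hη.differentiable one_ne_zero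
    have hs2 : s x ^ 2 = gsq σ u x + δ := Real.sq_sqrt (hWpos x).le
    have hsne : s x ≠ 0 := (Real.sqrt_pos.2 (hWpos x)).ne'
    have e1 : ∑ q, pd q (fun y => s y * η y) x ^ 2
        = (gsq σ u x + δ) * (∑ q, pd q η x ^ 2) + 2 * η x * (∑ q, sv σ u q x * pd q η x)
          + η x ^ 2 * ((∑ q, sv σ u q x ^ 2) / (gsq σ u x + δ)) := by
      rw [Finset.mul_sum, Finset.mul_sum, Finset.sum_div, Finset.mul_sum, ← Finset.sum_add_distrib,
        ← Finset.sum_add_distrib]
      refine Finset.sum_congr rfl fun q _ => ?_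
      rw [pd_mul (hsd.differentiable one_ne_zero) dη, hpds, ← hs2]
      field_simp
      ring
    have e2 : ∑ i ∈ σ, ((∑ q, pd q (pd i u) x * pd q (fun y => η y * η y * pd i u y) x)
        + (3 * u x ^ 2 - 1) * pd i u x * (η x * η x * pd i u x))
        = η x ^ 2 * (∑ i ∈ σ, ∑ q, pd q (pd i u) x ^ 2)
          + 2 * η x * (∑ q, sv σ u q x * pd q η x)
          + (3 * u x ^ 2 - 1) * η x ^ 2 * gsq σ u x := by
      have e : ∑ q, sv σ u q x * pd q η x = ∑ i ∈ σ, ∑ q, pd i u x * pd q (pd i u) x * pd q η x := by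
        simp only [sv, Finset.sum_mul]
        exact Finset.sum_comm
      rw [e, gsq, Finset.mul_sum, Finset.mul_sum, Finset.mul_sum, ← Finset.sum_add_distrib,
        ← Finset.sum_add_distrib]
      refine Finset.sum_congr rfl fun i _ => ?_
      rw [Finset.mul_sum, Finset.mul_sum, ← Finset.sum_add_distrib]
      congr 1
      · refine Finset.sum_congr rfl fun q _ => ?_
        rw [pd_mul (g := fun y => η y * η y) (dη.mul dη) ((hj i).differentiable one_ne_zero),
          pd_mul dη dη]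
        ring
      · ring
    rw [e1, e2, mul_pow, hs2]
    have h1 := mul_le_mul_of_nonneg_left (hZ δ hδ0 hδ1 x) (sq_nonneg (η x))
    have h2 : (3 * u x ^ 2 - 1) * η x ^ 2 * δ ≤ 2 * η x ^ 2 * δ :=
      mul_le_mul_of_nonneg_right (mul_le_mul_of_nonneg_right
        (by linarith [(sq_le_one_iff_abs_le_one _).2 (hb x)]) (sq_nonneg _)) hδ0.le
    linarith
  have := integral_mono ((iL.add iφ).sub iS) (iR.add (iE.const_mul δ)) hpt
  simp only [Pi.add_apply, Pi.sub_apply] at this
  have iLφ : Integrable fun x => η x ^ 2 * Z x + ((∑ q, pd q (fun y => s y * η y) x ^ 2)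
      + (3 * u x ^ 2 - 1) * (s x * η x) ^ 2) := iL.add iφ
  rw [integral_sub iLφ iS, integral_add iL iφ, integral_add iR (iE.const_mul δ),
    integral_const_mul, hlin] at this
  linarith

theorem lagrange (a b : Fin n → ℝ) :
    ∑ i, ∑ j, (a i * b j - a j * b i) ^ 2
      = 2 * ((∑ i, a i ^ 2) * (∑ i, b i ^ 2) - (∑ i, a i * b i) ^ 2) := by
  rw [pow_two (∑ i, a i * b i), Finset.sum_mul_sum, Finset.sum_mul_sum, ← Finset.sum_sub_distrib,
    Finset.mul_sum]
  have e : ∀ i j, (a i * b j - a j * b i) ^ 2 = a i ^ 2 * b j ^ 2 + a j ^ 2 * b i ^ 2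
      - 2 * (a i * b i * (a j * b j)) := fun i j => by ring
  simp only [e, Finset.sum_sub_distrib, Finset.sum_add_distrib, mul_sub, ← Finset.mul_sum,
    two_mul, Finset.sum_comm (f := fun i j => a j ^ 2 * b i ^ 2)]

/-- Quadratic growth of the energy forces a parallel gradient. -/
theorem par_of_quadratic {u : Sp n → ℝ} (hu : IsSol ac u) (hb : ∀ x, |u x| ≤ 1) (hs : Stable u)
    (hE : ∃ C, ∀ R : ℝ, 1 ≤ R →
      ∫ x, (Metric.closedBall (0 : Sp n) R).indicator (gsq Finset.univ u) x ≤ C * R ^ 2) :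
    Par u := by
  obtain ⟨C, hC⟩ := hE
  obtain ⟨B, hB0, hB⟩ := exists_th_bound
  obtain ⟨L, hL0, hg, -⟩ := reg_bounds hu hb
  set W := gsq Finset.univ u with hW
  set K : ℝ := n * L ^ 2 + 1 with hK
  have hK1 : 1 ≤ K := by rw [hK]; nlinarith [sq_nonneg L, show (0 : ℝ) ≤ n from Nat.cast_nonneg n]
  have hWK : ∀ x, W x + 1 ≤ K := fun x => by
    have h : W x ≤ ∑ _i : Fin n, L ^ 2 := Finset.sum_le_sum fun i _ =>
      sq_le_sq' (abs_le.1 (hg x i)).1 (abs_le.1 (hg x i)).2
    simp at h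
    linarith
  set D : Sp n → ℝ := fun x => W x * (∑ i, ∑ q, pd q (pd i u) x ^ 2)
    - ∑ q, sv Finset.univ u q x ^ 2 with hD
  have hDe : ∀ x, 2 * D x = ∑ q, ∑ i, ∑ j,
      (pd i u x * pd q (pd j u) x - pd j u x * pd q (pd i u) x) ^ 2 := by
    intro x
    simp only [lagrange, ← Finset.mul_sum, Finset.sum_sub_distrib]
    simp only [hD, hW, gsq, sv, Finset.mul_sum]
    rw [Finset.sum_comm (f := fun i q => (∑ j, pd j u x ^ 2) * pd q (pd i u) x ^ 2)]
  have hD0 : ∀ x, 0 ≤ D x := fun x => by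
    have := Finset.sum_nonneg fun q (_ : q ∈ (Finset.univ : Finset (Fin n))) => Finset.sum_nonneg
      fun i (_ : i ∈ (Finset.univ : Finset (Fin n))) => Finset.sum_nonneg
      fun j (_ : j ∈ (Finset.univ : Finset (Fin n))) =>
        sq_nonneg (pd i u x * pd q (pd j u) x - pd j u x * pd q (pd i u) x)
    linarith [hDe x]
  have hj : ∀ i, ContDiff ℝ 1 (pd i u) := pd_contDiff hu.reg
  have hWc : Continuous W := (gsq_contDiff hu.reg _).continuous
  have hDc : Continuous D :=
    (hWc.mul (continuous_finsetSum _ fun i _ => continuous_finsetSum _ fun q _ =>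
      (pd_cont (hj i) q).pow 2)).sub (continuous_finsetSum _ fun q _ => Continuous.pow
        (continuous_finsetSum _ fun i _ => (hj i).continuous.mul (pd_cont (hj i) q)) 2)
  have hb' : ∀ I : ℕ, 1 ≤ I → ∀ R : ℝ, 1 + (R ^ 2) ^ 2 ≤ 2 ^ I →
      ∫ x, (Metric.closedBall (0 : Sp n) R).indicator D x
        ≤ K * (2048 * B ^ 2 * C * (((I : ℝ) + 1) / (I : ℝ) ^ 2)) := by
    intro I hI R hR
    set η : Sp n → ℝ := fun x => lg I (nsq x) with hη
    have hlg : ContDiff ℝ 1 (lg I) := contDiff_one_iff_deriv.2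
      ⟨fun r => (lg_hasDerivAt I r).differentiableAt, by
        rw [show deriv (lg I) = lg' I from funext fun r => (lg_hasDerivAt I r).deriv]
        exact lg'_continuous I⟩
    have hηd : ContDiff ℝ 1 η := hlg.comp nsq_contDiff
    have hηc : HasCompactSupport η := by
      refine HasCompactSupport.intro (isCompact_closedBall (0 : Sp n) (2 ^ I)) fun x hx => ?_
      simp only [mem_closedBall_zero_iff, not_le] at hx
      refine lg_eq_zero ?_
      rw [nsq_eq, show (4 : ℝ) ^ I = (2 ^ I) ^ 2 by rw [← pow_mul, mul_comm, pow_mul]; norm_num]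
      exact (pow_lt_pow_left₀ hx (by positivity) two_ne_zero).le
    have hZ : ∀ δ : ℝ, 0 < δ → δ ≤ 1 → ∀ x, D x / K ≤
        (∑ i, ∑ q, pd q (pd i u) x ^ 2) - (∑ q, sv Finset.univ u q x ^ 2) / (W x + δ) := by
      intro δ h0 h1 x
      have hp : 0 < W x + δ := by linarith [gsq_nonneg (Finset.univ : Finset (Fin n)) u x]
      have hA : (0 : ℝ) ≤ ∑ i, ∑ q, pd q (pd i u) x ^ 2 :=
        Finset.sum_nonneg fun _ _ => Finset.sum_nonneg fun _ _ => sq_nonneg _
      calc D x / K ≤ D x / (W x + δ) :=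
            div_le_div_of_nonneg_left (hD0 x) hp (by linarith [hWK x])
        _ ≤ _ := by
            rw [hD, sub_div' hp.ne']
            exact div_le_div_of_nonneg_right (by nlinarith) hp.le
    have h := stab_SZ hu hb hs Finset.univ hηd hηc (hDc.div_const K) hZ
    have hint : ∀ i : ℕ, Integrable fun x : Sp n => 2048 * B ^ 2 / (I : ℝ) ^ 2 * ((4 : ℝ)⁻¹) ^ i *
        (Metric.closedBall (0 : Sp n) (2 ^ i)).indicator W x := fun i =>
      ((hWc.continuousOn.integrableOn_compact (isCompact_closedBall _ _)).integrable_indicator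
        measurableSet_closedBall).const_mul _
    have hpt : ∀ x, W x * ∑ q, pd q η x ^ 2 ≤ ∑ i ∈ Finset.range (I + 1),
        2048 * B ^ 2 / (I : ℝ) ^ 2 * ((4 : ℝ)⁻¹) ^ i *
        (Metric.closedBall (0 : Sp n) (2 ^ i)).indicator W x := by
      intro x
      have e : ∑ q, pd q η x ^ 2 = 4 * nsq x * lg' I (nsq x) ^ 2 := by
        have eq : ∀ q, pd q η x = lg' I (nsq x) * (2 * x q) := fun q => by
          rw [← pd_nsq, hη]
          exact pd_comp (lg_hasDerivAt I (nsq x)) (nsq_contDiff.differentiable one_ne_zero x) q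
        simp only [eq, nsq, Finset.mul_sum, Finset.sum_mul]
        exact Finset.sum_congr rfl fun q _ => by ring
      rw [e]
      refine (mul_le_mul_of_nonneg_left (lg'_bound hB hI (nsq_nonneg x))
        (gsq_nonneg _ _ x)).trans (le_of_eq ?_)
      rw [Finset.mul_sum]
      refine Finset.sum_congr rfl fun i _ => ?_
      have hiff : nsq x ≤ (4 : ℝ) ^ i ↔ x ∈ Metric.closedBall (0 : Sp n) (2 ^ i) := by
        rw [mem_closedBall_zero_iff, nsq_eq, show (4 : ℝ) ^ i = (2 ^ i) ^ 2 by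
          rw [← pow_mul, mul_comm, pow_mul]; norm_num]
        exact sq_le_sq₀ (norm_nonneg _) (by positivity)
      by_cases hx : nsq x ≤ (4 : ℝ) ^ i
      · rw [if_pos hx, Set.indicator_of_mem (hiff.1 hx)]
        ring
      · rw [if_neg hx, Set.indicator_of_notMem fun h => hx (hiff.2 h)]
        ring
    have hR2 : ∫ x, W x * ∑ q, pd q η x ^ 2
        ≤ 2048 * B ^ 2 * C * (((I : ℝ) + 1) / (I : ℝ) ^ 2) := by
      refine (integral_mono_of_nonneg (Eventually.of_forall fun x => mul_nonneg (gsq_nonneg _ _ x)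
        (Finset.sum_nonneg fun q _ => sq_nonneg _)) (integrable_finsetSum _ fun i _ => hint i)
        (Eventually.of_forall hpt)).trans ?_
      rw [integral_finsetSum _ fun i _ => hint i]
      refine (Finset.sum_le_sum fun i (_ : i ∈ Finset.range (I + 1)) =>
        (integral_const_mul _ _).trans_le (mul_le_mul_of_nonneg_left
          (hC _ (one_le_pow₀ one_le_two)) (by positivity))).trans (le_of_eq ?_)
      have e : ∀ i : ℕ, 2048 * B ^ 2 / (I : ℝ) ^ 2 * ((4 : ℝ)⁻¹) ^ i * (C * ((2 : ℝ) ^ i) ^ 2)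
          = 2048 * B ^ 2 * C / (I : ℝ) ^ 2 := fun i => by
        rw [← pow_mul, mul_comm i 2, pow_mul, show ((2 : ℝ) ^ 2) = 4 by norm_num, inv_pow]
        field_simp
      simp only [e, Finset.sum_const, Finset.card_range, nsmul_eq_mul, Nat.cast_add, Nat.cast_one]
      ring
    have hlow : ∫ x, (Metric.closedBall (0 : Sp n) R).indicator D x
        ≤ K * ∫ x, η x ^ 2 * (D x / K) := by
      rw [← integral_const_mul]
      refine integral_mono ((hDc.continuousOn.integrableOn_compact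
        (isCompact_closedBall _ _)).integrable_indicator measurableSet_closedBall)
        ((((hηd.continuous.pow 2).mul (hDc.div_const K)).integrable_of_hasCompactSupport
          (HasCompactSupport.intro hηc fun x hx => by simp [(hcs_zero hx).1])).const_mul K)
        fun x => ?_
      have e : K * (η x ^ 2 * (D x / K)) = η x ^ 2 * D x := by field_simp
      simp only [e]
      by_cases hx : x ∈ Metric.closedBall (0 : Sp n) R
      · rw [Set.indicator_of_mem hx]
        rw [mem_closedBall_zero_iff] at hx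
        have h2 : nsq x ≤ R ^ 2 := by
          rw [nsq_eq]; exact pow_le_pow_left₀ (norm_nonneg _) hx 2
        rw [hη]
        simp only
        rw [lg_eq_one (le_trans (by nlinarith [nsq_nonneg x]) hR)]
        simp
      · rw [Set.indicator_of_notMem hx]
        exact mul_nonneg (sq_nonneg _) (hD0 x)
    exact hlow.trans (mul_le_mul_of_nonneg_left (h.trans hR2) (by linarith))
  have hzero : ∀ x, D x = 0 := by
    refine eq_zero_of_small hDc hD0 fun R => ?_
    have hlim : Tendsto (fun I : ℕ => K * (2048 * B ^ 2 * C * (((I : ℝ) + 1) / (I : ℝ) ^ 2)))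
        atTop (𝓝 0) := by
      have h1 := tendsto_inv_atTop_nhds_zero_nat (𝕜 := ℝ)
      have h2 : Tendsto (fun I : ℕ => K * (2048 * B ^ 2 * C) *
          ((I : ℝ)⁻¹ + (I : ℝ)⁻¹ * (I : ℝ)⁻¹)) atTop (𝓝 0) := by
        simpa using (h1.add (h1.mul h1)).const_mul (K * (2048 * B ^ 2 * C))
      refine h2.congr' ?_
      filter_upwards [eventually_ge_atTop 1] with I hI
      have : (I : ℝ) ≠ 0 := by positivity
      field_simp
    refine ge_of_tendsto hlim ?_
    filter_upwards [eventually_ge_atTop 1, (tendsto_pow_atTop_atTop_of_one_lt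
      (one_lt_two (α := ℝ))).eventually_ge_atTop (1 + (R ^ 2) ^ 2)] with I hI hIR
      using hb' I hI R hIR
  intro x i j q
  have h := hDe x
  rw [hzero x, mul_zero] at h
  have h1 := (Finset.sum_eq_zero_iff_of_nonneg fun q _ => Finset.sum_nonneg fun i _ =>
    Finset.sum_nonneg fun j _ => sq_nonneg _).1 h.symm q (Finset.mem_univ _)
  have h2 := (Finset.sum_eq_zero_iff_of_nonneg fun i _ => Finset.sum_nonneg fun j _ =>
    sq_nonneg _).1 h1 i (Finset.mem_univ _)
  have h3 := (Finset.sum_eq_zero_iff_of_nonneg fun j _ => sq_nonneg _).1 h2 j (Finset.mem_univ _)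
  exact sub_eq_zero.1 (pow_eq_zero_iff two_ne_zero |>.1 h3)

theorem ball_volume (n : ℕ) : ∃ V, 0 ≤ V ∧ ∀ R : ℝ, 0 ≤ R →
    (volume : Measure (Sp n)).real (Metric.closedBall 0 R) ≤ V * R ^ n := by
  refine ⟨(volume : Measure (Sp n)).real (Metric.closedBall 0 1), measureReal_nonneg, fun R hR => ?_⟩
  rw [mul_comm, Measure.real, Measure.real,
    Measure.addHaar_closedBall' (volume : Measure (Sp n)) 0 hR]
  simp [ENNReal.toReal_mul, ENNReal.toReal_ofReal, hR]

/-- In dimensions at most two the energy growth is quadratic. -/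
theorem par_of_dim_two {u : Sp n → ℝ} (hn : n ≤ 2) (hu : IsSol ac u) (hb : ∀ x, |u x| ≤ 1)
    (hs : Stable u) : Par u := by
  refine par_of_quadratic hu hb hs ?_
  obtain ⟨L, hL0, hg, -⟩ := reg_bounds hu hb
  obtain ⟨V, hV0, hV⟩ := ball_volume n
  refine ⟨n * L ^ 2 * V, fun R hR => ?_⟩
  have hW : ∀ x, gsq Finset.univ u x ≤ n * L ^ 2 := fun x => by
    have h : gsq Finset.univ u x ≤ ∑ _i : Fin n, L ^ 2 := Finset.sum_le_sum fun i _ =>
      sq_le_sq' (abs_le.1 (hg x i)).1 (abs_le.1 (hg x i)).2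
    simpa using h
  rw [integral_indicator measurableSet_closedBall]
  calc ∫ x in Metric.closedBall (0 : Sp n) R, gsq Finset.univ u x
      ≤ ∫ _x in Metric.closedBall (0 : Sp n) R, (n : ℝ) * L ^ 2 :=
        setIntegral_mono ((gsq_contDiff hu.reg _).continuous.continuousOn.integrableOn_compact
          (isCompact_closedBall _ _)) ((continuous_const : Continuous fun _ : Sp n =>
            (n : ℝ) * L ^ 2).continuousOn.integrableOn_compact (isCompact_closedBall _ _)) hW
    _ = (n * L ^ 2) * (volume : Measure (Sp n)).real (Metric.closedBall 0 R) := by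
        rw [setIntegral_const, smul_eq_mul, mul_comm]
    _ ≤ (n * L ^ 2) * (V * R ^ 2) := mul_le_mul_of_nonneg_left
        ((hV R (by linarith)).trans (mul_le_mul_of_nonneg_left (pow_le_pow_right₀ hR hn) hV0))
        (by positivity)
    _ = _ := by ring

end Vale.Agent.P134R
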