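import Vale.Agent.P134R.Grad

/-!
# P134: stability, and the limit profile of a monotone solution
-/

namespace Vale.Agent.P134R

open MeasureTheory Filter Topology Finset Vale.Agent.P134

variable {n : ℕ}

/-- Stability: the second variation is nonnegative on compactly supported test functions. -/
def Stable (u : Sp n → ℝ) : Prop :=
  ∀ φ : Sp n → ℝ, ContDiff ℝ 1 φ → HasCompactSupport φ →
    0 ≤ ∫ x, ((∑ q, pd q φ x ^ 2) + (3 * u x ^ 2 - 1) * φ x ^ 2)

theorem ac_contDiff : ContDiff ℝ 1 ac := (contDiff_id.pow 3).sub contDiff_id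

theorem deriv_ac (s : ℝ) : deriv ac s = 3 * s ^ 2 - 1 := by
  have : HasDerivAt ac (3 * s ^ 2 - 1) s :=
    ((hasDerivAt_pow 3 s).sub (hasDerivAt_id' s)).congr_deriv (by push_cast; ring)
  exact this.deriv

theorem hcs_zero {φ : Sp n → ℝ} {x : Sp n} (hx : x ∉ tsupport φ) :
    φ x = 0 ∧ ∀ q, pd q φ x = 0 :=
  ⟨image_eq_zero_of_notMem_tsupport hx, fun q => by
    rw [pd, fderiv_of_notMem_tsupport ℝ hx]; rfl⟩

theorem pd_inv {v : Sp n → ℝ} (hv : Differentiable ℝ v) (hp : ∀ x, v x ≠ 0) (q : Fin n) (x : Sp n) :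
    pd q (fun y => (v y)⁻¹) x = -pd q v x / v x ^ 2 := by
  have hd := (hasDerivAt_inv (hp x)).comp_hasFDerivAt x (hv x).hasFDerivAt
  show fderiv ℝ ((fun t : ℝ => t⁻¹) ∘ v) x (ev q) = -fderiv ℝ v x (ev q) / v x ^ 2
  rw [hd.fderiv]
  simp only [_root_.smul_apply, smul_eq_mul]
  field_simp

theorem stable_of_pos {u : Sp n → ℝ} (hu : IsSol ac u) {l : Fin n}
    (hpos : ∀ x, 0 < pd l u x) : Stable u := by
  intro φ hφ hc
  have hv : ContDiff ℝ 1 (pd l u) := pd_contDiff hu.reg l
  have hinv : ContDiff ℝ 1 fun y => (pd l u y)⁻¹ := hv.inv fun y => (hpos y).ne'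
  have hψ : ContDiff ℝ 1 fun y => φ y * φ y * (pd l u y)⁻¹ := (hφ.mul hφ).mul hinv
  have hψc : HasCompactSupport fun y => φ y * φ y * (pd l u y)⁻¹ := hc.mul_left.mul_right
  have h := linearized ac_contDiff hu hψ hψc l
  simp only [deriv_ac] at h
  have hu' : Continuous u := hu.reg.continuous
  have i1 : Integrable fun x => (∑ q, pd q φ x ^ 2) + (3 * u x ^ 2 - 1) * φ x ^ 2 :=
    ((continuous_finsetSum _ fun q _ => (pd_cont hφ q).pow 2).add
      ((((hu'.pow 2).const_mul 3).sub continuous_const).mul (hφ.continuous.pow 2))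
      ).integrable_of_hasCompactSupport
      (HasCompactSupport.intro hc fun x hx => by simp [(hcs_zero hx).1, (hcs_zero hx).2])
  have i2 : Integrable fun x => (∑ q, pd q (pd l u) x * pd q (fun y => φ y * φ y * (pd l u y)⁻¹) x)
      + (3 * u x ^ 2 - 1) * pd l u x * (φ x * φ x * (pd l u x)⁻¹) :=
    ((continuous_finsetSum _ fun q _ => (pd_cont hv q).mul (pd_cont hψ q)).add
      (((((hu'.pow 2).const_mul 3).sub continuous_const).mul hv.continuous).mul hψ.continuous)
      ).integrable_of_hasCompactSupport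
      (HasCompactSupport.intro hψc fun x hx => by
        have e := (hcs_zero hx).1
        simp [(hcs_zero hx).2, e])
  suffices hnn : 0 ≤ ∫ x, (((∑ q, pd q φ x ^ 2) + (3 * u x ^ 2 - 1) * φ x ^ 2)
      - ((∑ q, pd q (pd l u) x * pd q (fun y => φ y * φ y * (pd l u y)⁻¹) x)
        + (3 * u x ^ 2 - 1) * pd l u x * (φ x * φ x * (pd l u x)⁻¹))) by
    rw [integral_sub i1 i2, h, sub_zero] at hnn
    exact hnn
  refine integral_nonneg fun x => ?_
  have hne := (hpos x).ne'
  have e0 : (3 * u x ^ 2 - 1) * pd l u x * (φ x * φ x * (pd l u x)⁻¹)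
      = (3 * u x ^ 2 - 1) * φ x ^ 2 := by field_simp
  simp only [Pi.zero_apply, e0, add_sub_add_right_eq_sub, ← Finset.sum_sub_distrib]
  refine Finset.sum_nonneg fun q _ => ?_
  have dφ := hφ.differentiable one_ne_zero
  rw [pd_mul (g := fun y => φ y * φ y) (dφ.mul dφ) (hinv.differentiable one_ne_zero), pd_mul dφ dφ,
    pd_inv (hv.differentiable one_ne_zero) (fun y => (hpos y).ne')]
  have : pd q φ x ^ 2 - pd q (pd l u) x * ((pd q φ x * φ x + φ x * pd q φ x) * (pd l u x)⁻¹
      + φ x * φ x * (-pd q (pd l u) x / pd l u x ^ 2))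
      = (pd q φ x - φ x * pd q (pd l u) x / pd l u x) ^ 2 := by
    field_simp
    ring
  rw [this]
  exact sq_nonneg _

theorem fderiv_lip {g : Sp n → ℝ} {C : ℝ} (hC : ∀ x h i, |pd i g (x + h) - pd i g x| ≤ C * ‖h‖)
    (x h : Sp n) : ‖fderiv ℝ g (x + h) - fderiv ℝ g x‖ ≤ n * (C * ‖h‖) := by
  rcases Nat.eq_zero_or_pos n with hn | hn
  · subst hn
    have : h = 0 := Subsingleton.elim _ _
    simp [this]
  have hC0 : 0 ≤ C * ‖h‖ := (abs_nonneg _).trans (hC x h ⟨0, hn⟩)
  refine ContinuousLinearMap.opNorm_le_bound _ (by positivity) fun w => ?_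
  rw [_root_.sub_apply, fderiv_eq_sum, fderiv_eq_sum, ← Finset.sum_sub_distrib,
    Real.norm_eq_abs]
  refine (Finset.abs_sum_le_sum_abs _ _).trans ?_
  calc ∑ q, |w q * pd q g (x + h) - w q * pd q g x| ≤ ∑ _q : Fin n, ‖w‖ * (C * ‖h‖) := by
        refine Finset.sum_le_sum fun q _ => ?_
        rw [← mul_sub, abs_mul]
        exact mul_le_mul (PiLp.norm_apply_le w q) (hC x h q) (abs_nonneg _) (norm_nonneg _)
    _ = n * (C * ‖h‖) * ‖w‖ := by simp; ring

theorem taylor {g : Sp n → ℝ} (hg : Differentiable ℝ g) {C : ℝ} (hC0 : 0 ≤ C)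
    (hC : ∀ x h i, |pd i g (x + h) - pd i g x| ≤ C * ‖h‖) (x h : Sp n) :
    |g (x + h) - g x - ∑ q, h q * pd q g x| ≤ n * C * ‖h‖ ^ 2 := by
  have hb : ∀ z ∈ segment ℝ x (x + h), ‖fderiv ℝ g z - fderiv ℝ g x‖ ≤ n * (C * ‖h‖) := by
    intro z hz
    obtain ⟨θ, ⟨h0, h1⟩, rfl⟩ := by
      rw [segment_eq_image'] at hz
      exact hz
    simp only [add_sub_cancel_left]
    refine (fderiv_lip hC x (θ • h)).trans ?_
    rw [norm_smul, Real.norm_eq_abs, abs_of_nonneg h0]
    exact mul_le_mul_of_nonneg_left (mul_le_mul_of_nonneg_left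
      (mul_le_of_le_one_left (norm_nonneg _) h1) hC0) (Nat.cast_nonneg _)
  have := (convex_segment x (x + h)).norm_image_sub_le_of_norm_fderiv_le' (fun z _ => hg z) hb
    (left_mem_segment ℝ x (x + h)) (right_mem_segment ℝ x (x + h))
  simp only [add_sub_cancel_left, Real.norm_eq_abs, fderiv_eq_sum] at this
  calc _ ≤ n * (C * ‖h‖) * ‖h‖ := this
    _ = n * C * ‖h‖ ^ 2 := by ring

theorem conv_grad {g : ℕ → Sp n → ℝ} {G : Sp n → ℝ} (hg : ∀ N, Differentiable ℝ (g N)) {C : ℝ}
    (hC0 : 0 ≤ C) (hC : ∀ N x h i, |pd i (g N) (x + h) - pd i (g N) x| ≤ C * ‖h‖)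
    (hlim : ∀ x, Tendsto (fun N => g N x) atTop (𝓝 (G x))) :
    ContDiff ℝ 1 G ∧ ∀ x i, Tendsto (fun N => pd i (g N) x) atTop (𝓝 (pd i G x)) := by
  have hex : ∀ i x, ∃ p, Tendsto (fun N => pd i (g N) x) atTop (𝓝 p) := by
    intro i x
    refine cauchySeq_tendsto_of_complete (Metric.cauchySeq_iff'.2 fun ε hε => ?_)
    set t : ℝ := ε / (4 * (n * C + 1)) with ht
    have ht0 : 0 < t := by positivity
    have hq : ∀ N, |(g N (x + t • ev i) - g N x) / t - pd i (g N) x| ≤ n * C * t := by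
      intro N
      have h1 := taylor (hg N) hC0 (hC N) x (t • ev i)
      have e : ∑ q, (t • ev i : Sp n) q * pd q (g N) x = t * pd i (g N) x := by
        simp [ev_apply]
      rw [e, norm_smul, Real.norm_eq_abs, abs_of_pos ht0, show ‖ev i‖ = 1 by simp [ev], mul_one] at h1
      rw [div_sub' ht0.ne', abs_div, abs_of_pos ht0, div_le_iff₀ ht0]
      calc _ ≤ n * C * t ^ 2 := h1
        _ = n * C * t * t := by ring
    have hcs := (((hlim (x + t • ev i)).sub (hlim x)).div_const t).cauchySeq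
    obtain ⟨N0, hN0⟩ := Metric.cauchySeq_iff'.1 hcs (ε / 2) (by positivity)
    refine ⟨N0, fun N hN => ?_⟩
    have h1 := hN0 N hN
    rw [Real.dist_eq] at h1 ⊢
    have h2 : n * C * t ≤ ε / 4 := by
      rw [ht, mul_div_assoc', div_le_div_iff₀ (by positivity) (by norm_num)]
      nlinarith
    have a := abs_le.1 (hq N)
    have b := abs_le.1 (hq N0)
    have c := abs_lt.1 h1
    rw [abs_lt]
    constructor <;> linarith
  choose p hp using hex
  have hTay : ∀ x h, |G (x + h) - G x - ∑ q, h q * p q x| ≤ n * C * ‖h‖ ^ 2 := fun x h =>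
    le_of_tendsto' ((((hlim (x + h)).sub (hlim x)).sub
      (tendsto_finsetSum _ fun q _ => (hp q x).const_mul (h q))).abs)
      fun N => taylor (hg N) hC0 (hC N) x h
  set P : Sp n → (Sp n →L[ℝ] ℝ) := fun x => ∑ q, p q x • EuclideanSpace.proj q with hP
  have hPa : ∀ x w, P x w = ∑ q, w q * p q x := fun x w => by
    simp [hP, mul_comm]
  have hd : ∀ x, HasFDerivAt G (P x) x := by
    intro x
    rw [hasFDerivAt_iff_isLittleO_nhds_zero]
    refine (Asymptotics.IsBigO.of_bound ((n : ℝ) * C) (g := fun h : Sp n => ‖h‖ ^ 2)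
      (Eventually.of_forall fun h => ?_)).trans_isLittleO
      (Asymptotics.isLittleO_norm_pow_id one_lt_two)
    rw [hPa, Real.norm_eq_abs, Real.norm_eq_abs, abs_of_nonneg (sq_nonneg ‖h‖)]
    exact hTay x h
  have hpd : ∀ x i, pd i G x = p i x := fun x i => by
    rw [pd, (hd x).fderiv, hPa]
    simp [ev_apply]
  have hpc : ∀ q, Continuous (p q) := by
    intro q
    refine (LipschitzWith.of_dist_le_mul (K := C.toNNReal) fun a b => ?_).continuous
    rw [Real.coe_toNNReal C hC0, Real.dist_eq, dist_eq_norm]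
    refine le_of_tendsto' (((hp q a).sub (hp q b)).abs) fun N => ?_
    simpa using hC N b (a - b) q
  refine ⟨contDiff_one_iff_fderiv.2 ⟨fun x => (hd x).differentiableAt, ?_⟩,
    fun x i => (hpd x i).symm ▸ hp i x⟩
  rw [show fderiv ℝ G = P from funext fun x => (hd x).fderiv, hP]
  exact continuous_finsetSum _ fun q _ => (hpc q).smul continuous_const

theorem contDiff_two_of_pd {v : Sp n → ℝ} (h1 : ContDiff ℝ 1 v)
    (h2 : ∀ q, ContDiff ℝ 1 (pd q v)) : ContDiff ℝ 2 v := by
  have e : fderiv ℝ v = fun x => ∑ q, pd q v x • EuclideanSpace.proj q := funext fun x =>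
    ContinuousLinearMap.ext fun w => by simp [fderiv_eq_sum, mul_comm]
  rw [show (2 : WithTop ℕ∞) = 1 + 1 from rfl, contDiff_succ_iff_fderiv]
  refine ⟨h1.differentiable one_ne_zero, by simp, ?_⟩
  rw [e]
  exact ContDiff.sum fun q _ => (h2 q).smul contDiff_const

theorem stable_shift {u : Sp n → ℝ} (hs : Stable u) (a : Sp n) : Stable fun y => u (y + a) := by
  intro φ hφ hc
  have h := hs (fun y => φ (y + -a)) (hφ.comp (contDiff_id.add contDiff_const))
    (hc.comp_homeomorph (Homeomorph.addRight (-a)))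
  rw [← integral_add_right_eq_self _ a] at h
  simpa only [pd_shift, add_neg_cancel_right] using h

/-- The upper profile of a monotone solution. -/
theorem profile {u : Sp n → ℝ} (hu : IsSol ac u) (hb : ∀ x, |u x| ≤ 1) (l : Fin n)
    (hpos : ∀ x, 0 < pd l u x) :
    ∃ v : Sp n → ℝ, IsSol ac v ∧ (∀ x, |v x| ≤ 1) ∧ Stable v ∧ (∀ x, pd l v x = 0) ∧
      (∀ x, Tendsto (fun N : ℕ => u (x + (N : ℝ) • ev l)) atTop (𝓝 (v x))) ∧
      ∀ x i, Tendsto (fun N : ℕ => pd i u (x + (N : ℝ) • ev l)) atTop (𝓝 (pd i v x)) := by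
  obtain ⟨L, hL0, hg, hg1, hg2, -⟩ := reg_bounds hu hb
  have hud := hu.reg.differentiable two_ne_zero
  have hmono : ∀ x, StrictMono fun t : ℝ => u (x + t • ev l) := fun x => by
    refine strictMono_of_deriv_pos fun t => ?_
    have := line_deriv hud x l 1 t
    simp only [one_mul] at this
    rw [this.deriv]
    exact hpos _
  set v : Sp n → ℝ := fun x => ⨆ N : ℕ, u (x + (N : ℝ) • ev l) with hv
  have hlim : ∀ x, Tendsto (fun N : ℕ => u (x + (N : ℝ) • ev l)) atTop (𝓝 (v x)) := fun x =>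
    tendsto_atTop_ciSup (fun a b hab => (hmono x).monotone (Nat.cast_le.2 hab))
      ⟨1, by rintro _ ⟨N, rfl⟩; exact (abs_le.1 (hb _)).2⟩
  set g : ℕ → Sp n → ℝ := fun N y => u (y + (N : ℝ) • ev l) with hgdef
  have hgp : ∀ N i, pd i (g N) = fun x => pd i u (x + (N : ℝ) • ev l) := fun N i => pd_shift _ _ _
  obtain ⟨hv1, hp1⟩ := conv_grad (g := g) (G := v) (C := L)
    (fun N => ((sol_shift hu _).reg).differentiable two_ne_zero) hL0
    (fun N x h i => by
      rw [hgp]
      simp only [add_right_comm x h]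
      exact hg1 _ h i) hlim
  simp only [hgp] at hp1
  have hsec : ∀ q, ContDiff ℝ 1 (pd q v) ∧ ∀ x i, Tendsto
      (fun N : ℕ => pd i (pd q u) (x + (N : ℝ) • ev l)) atTop (𝓝 (pd i (pd q v) x)) := by
    intro q
    have e : ∀ N : ℕ, ∀ i, pd i (fun y => pd q u (y + (N : ℝ) • ev l))
        = fun x => pd i (pd q u) (x + (N : ℝ) • ev l) := fun N i => pd_shift _ _ _
    obtain ⟨a, b⟩ := conv_grad (g := fun N y => pd q u (y + (N : ℝ) • ev l)) (G := pd q v) (C := L)
      (fun N => ((pd_contDiff hu.reg q).comp (contDiff_id.add contDiff_const)).differentiable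
        one_ne_zero) hL0
      (fun N x h i => by
        rw [e]
        simp only [add_right_comm x h]
        exact hg2 _ h i q) (fun x => hp1 x q)
    simp only [e] at b
    exact ⟨a, b⟩
  have hvb : ∀ x, |v x| ≤ 1 := fun x => le_of_tendsto' (hlim x).abs fun N => hb _
  have hconst : ∀ (x : Sp n) (s : ℝ), v (x + s • ev l) = v x := by
    intro x s
    obtain ⟨M, hM⟩ := exists_nat_ge |s|
    have hs := abs_le.1 hM
    have e : ∀ N : ℕ, (x + s • ev l) + (N : ℝ) • ev l = x + (s + N) • ev l := fun N => by module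
    refine le_antisymm (le_of_tendsto_of_tendsto' (hlim _) ((hlim x).comp (tendsto_add_atTop_nat M))
      fun N => ?_) (le_of_tendsto_of_tendsto' (hlim x) ((hlim _).comp (tendsto_add_atTop_nat M))
      fun N => ?_)
    · simp only [Function.comp_apply, e, Nat.cast_add]
      exact (hmono x).monotone (by linarith)
    · simp only [Function.comp_apply, e, Nat.cast_add]
      exact (hmono x).monotone (by linarith)
  refine ⟨v, ⟨contDiff_two_of_pd hv1 fun q => (hsec q).1, fun x => ?_⟩, hvb, ?_, fun x => ?_,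
    hlim, hp1⟩
  · refine tendsto_nhds_unique ?_ ((ac_contDiff.continuous.tendsto _).comp (hlim x))
    refine (tendsto_finsetSum _ fun q _ => (hsec q).2 x q).congr fun N => ?_
    exact hu.eqn _
  · intro φ hφ hc
    have hcφ : Continuous φ := hφ.continuous
    refine ge_of_tendsto' (x := (atTop : Filter ℕ)) (f := fun N : ℕ => ∫ x, ((∑ q, pd q φ x ^ 2)
      + (3 * u (x + (N : ℝ) • ev l) ^ 2 - 1) * φ x ^ 2)) ?_
      fun N => stable_shift (stable_of_pos hu hpos) ((N : ℝ) • ev l) φ hφ hc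
    refine tendsto_integral_of_dominated_convergence
      (fun x => (∑ q, pd q φ x ^ 2) + 2 * φ x ^ 2) (fun N => ?_) ?_ (fun N => ?_) ?_
    · exact (((continuous_finsetSum _ fun q _ => (pd_cont hφ q).pow 2).add
        (((((hu.reg.continuous.comp (continuous_id.add continuous_const)).pow 2).const_mul 3).sub
          continuous_const).mul (hcφ.pow 2)))).aestronglyMeasurable
    · exact ((continuous_finsetSum _ fun q _ => (pd_cont hφ q).pow 2).add
        ((hcφ.pow 2).const_mul 2)).integrable_of_hasCompactSupport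
        (HasCompactSupport.intro hc fun x hx => by simp [(hcs_zero hx).1, (hcs_zero hx).2])
    · refine Eventually.of_forall fun x => ?_
      rw [Real.norm_eq_abs]
      refine (abs_add_le _ _).trans (add_le_add (le_of_eq (abs_of_nonneg
        (Finset.sum_nonneg fun _ _ => sq_nonneg _))) ?_)
      rw [abs_mul, abs_of_nonneg (sq_nonneg (φ x))]
      refine mul_le_mul_of_nonneg_right ?_ (sq_nonneg _)
      have h1 := (sq_le_one_iff_abs_le_one _).2 (hb (x + (N : ℝ) • ev l))
      have h0 := sq_nonneg (u (x + (N : ℝ) • ev l))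
      rw [abs_le]
      constructor <;> linarith
    · exact Eventually.of_forall fun x =>
        (((((hlim x).pow 2).const_mul 3).sub_const 1).mul_const _).const_add _
  · have h1 := line_deriv (hv1.differentiable one_ne_zero) x l 1 0
    simp only [one_mul, mul_zero, zero_smul, add_zero, hconst] at h1
    exact h1.unique (hasDerivAt_const 0 (v x))

end Vale.Agent.P134R
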